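import Vale.Agent.P092.H859.CLN
import Vale.Agent.P092.RC.Blocks
import Vale.Agent.P092.H142.Par

/-!
P092 (helper978), Team C, output half of the engine: the homomorphism `β` on the continuous functions
of the plane gives the boundary map `E C = β (indicator of C)` of `RC.Lim`, and `E C` is a limit of
conjugated multiplication operators.
-/

set_option linter.all false

open scoped InnerProductSpace
open Filter Topology ContinuousLinearMap TopologicalSpace

namespace Vale.Agent.P092.H978.LimC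

open Vale.Agent.P092.H859.CL
open Vale.Agent.P092.H553 (ind ind_nonneg ind_le_one abs_ind_le ind_pos ind_neg)
open Vale.Agent.P092.RC (Lim Cm sm)
open Vale.Agent.P092.H820 (Cpv)

section ci

variable {Y : Type} [TopologicalSpace Y]

/-- The indicator function of a clopen set. -/
noncomputable def ci (C : Clopens Y) : C(Y, ℂ) where
  toFun := LocallyConstant.charFn ℂ C.isClopen
  continuous_toFun := LocallyConstant.continuous _

open Classical in
theorem ci_apply (C : Clopens Y) (y : Y) : ci C y = if y ∈ C then 1 else 0 := by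
  change LocallyConstant.charFn ℂ C.isClopen y = _
  rw [LocallyConstant.coe_charFn, Set.indicator_apply]
  rfl

theorem ci_pos {C : Clopens Y} {y : Y} (h : y ∈ C) : ci C y = 1 := by
  rw [ci_apply, if_pos h]

theorem ci_neg {C : Clopens Y} {y : Y} (h : y ∉ C) : ci C y = 0 := by
  rw [ci_apply, if_neg h]

theorem ci_inf (C D : Clopens Y) : ci (C ⊓ D) = ci C * ci D := by
  ext y
  rw [ContinuousMap.mul_apply]
  by_cases h1 : y ∈ C
  · by_cases h2 : y ∈ D
    · rw [ci_pos h1, ci_pos h2, ci_pos (show y ∈ C ⊓ D from ⟨h1, h2⟩), one_mul]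
    · rw [ci_neg h2, ci_neg (fun h : y ∈ C ⊓ D => h2 h.2), mul_zero]
  · rw [ci_neg h1, ci_neg (fun h : y ∈ C ⊓ D => h1 h.1), zero_mul]

theorem ci_compl (C : Clopens Y) : ci Cᶜ = 1 - ci C := by
  ext y
  rw [ContinuousMap.sub_apply, ContinuousMap.one_apply]
  by_cases h1 : y ∈ C
  · rw [ci_pos h1, ci_neg (fun h : y ∈ Cᶜ => h h1), sub_self]
  · rw [ci_neg h1, ci_pos (show y ∈ Cᶜ from h1), sub_zero]

theorem star_ci (C : Clopens Y) : star (ci C) = ci C := by
  ext y
  rw [ContinuousMap.star_apply]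
  by_cases h1 : y ∈ C
  · rw [ci_pos h1, star_one]
  · rw [ci_neg h1, star_zero]

end ci

section eng

variable {Γ D K Y : Type} [Group Γ] [Group D] [TopologicalSpace D] [NormedAddCommGroup K]
  [InnerProductSpace ℂ K] [CompleteSpace K] [TopologicalSpace Y] [CompactSpace Y] [SMul Γ Y]
  {mp : (Γ → ℝ) → (K →L[ℂ] K)} {π : D →* (K →L[ℂ] K)} {lam : Γ →* (K →L[ℂ] K)}
  {W : Set (K →L[ℂ] K)} {G1 G2 : Γ → ℝ} {bp : Γ → Y} {b : D}
  {β : C(Y, ℂ) →⋆ₐ[ℂ] (K →L[ℂ] K)}

/-- **`RC.Lim` from the output of the engine.** -/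
theorem lim_rc [MulAction D Y] [ContinuousConstSMul D Y]
    (h : EngOut mp (fun g => π g) (fun γ => lam γ) W b G1 G2 bp β) {q : Γ →* D}
    (hq : ∀ (γ : Γ) (y : Y), γ • y = q γ • y) {y₀ : Y}
    (hS : ∀ p : D, p • y₀ = y₀ → ∃ d n, p = d * n ∧ b * d = d * b ∧
      Tendsto (fun N : ℕ => b ^ N * n * (b ^ N)⁻¹) atTop (𝓝 1)) :
    Lim π lam W q y₀ fun C => β (ci C) where
  cpv :=
    { sa := fun C => by rw [← map_star, star_ci]
      inf := fun C D => by rw [ci_inf, map_mul]
      compl := fun C => by rw [ci_compl, map_sub, map_one] }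
  cm C := fun a ha => (h.cm a ha _).symm
  cov γ C := h.cov γ _ _ fun y => by
    by_cases h1 : y ∈ C
    · rw [ci_pos h1, ci_pos]
      change (q γ)⁻¹ • (γ • y) ∈ C
      rw [hq, inv_smul_smul]
      exact h1
    · rw [ci_neg h1, ci_neg]
      intro h2
      change (q γ)⁻¹ • (γ • y) ∈ C at h2
      rw [hq, inv_smul_smul] at h2
      exact h1 h2
  par p hp C := by
    obtain ⟨d, n, rfl, hd, hn⟩ := hS p hp
    rw [map_mul, mul_assoc, h.contr n hn, ← mul_assoc, h.cent d hd, mul_assoc]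

omit [CompactSpace Y] [SMul Γ Y] in
theorem mc_ci (hf : Fn mp) (C : Clopens Y) :
    mc mp (H859.CL.cfc G1 G2 bp (ci C)) = st mp (cn G1 G2 bp (C : Set Y)) := by
  have h1 : (fun g => (H859.CL.cfc G1 G2 bp (ci C) g).im) = fun _ : Γ => (0 : ℝ) := by
    funext g
    rw [H859.CL.cfc]
    by_cases hg : bp g ∈ C
    · rw [ci_pos hg, mul_one, Complex.ofReal_im]
    · rw [ci_neg hg, mul_zero, Complex.zero_im]
  have h2 : (fun g => (H859.CL.cfc G1 G2 bp (ci C) g).re) =
      ind fun g => g ∈ cn G1 G2 bp (C : Set Y) := by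
    funext g
    rw [H859.CL.cfc]
    by_cases hg : bp g ∈ C
    · rw [ci_pos hg, mul_one, Complex.ofReal_re]
      by_cases h3 : G2 g ≤ G1 g
      · rw [ind_pos (P := fun g => G2 g ≤ G1 g) h3,
          ind_pos (P := fun g => g ∈ cn G1 G2 bp (C : Set Y)) ⟨h3, hg⟩]
      · rw [ind_neg (P := fun g => G2 g ≤ G1 g) h3,
          ind_neg (P := fun g => g ∈ cn G1 G2 bp (C : Set Y)) (fun h4 => h3 h4.1)]
    · rw [ci_neg hg, mul_zero, Complex.zero_re,
        ind_neg (P := fun g => g ∈ cn G1 G2 bp (C : Set Y)) (fun h4 => hg h4.2)]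
  rw [mc, h1, h2, hf.zero, smul_zero, add_zero]
  rfl

/-- **The approximation** (`RC.Half.app` at the level of the engine). -/
theorem app_eng (h : EngOut mp (fun g => π g) (fun γ => lam γ) W b G1 G2 bp β) (hf : Fn mp)
    (C : Clopens Y) (ξ : K) :
    Tendsto (fun n : ℕ => π (b ^ n)⁻¹ (st mp (cn G1 G2 bp (C : Set Y)) (π (b ^ n) ξ))) atTop
      (𝓝 (β (ci C) ξ)) := by
  have h1 := tendsto_pw.mp (h.lim (ci C) ξ)
  refine h1.congr fun n => ?_
  rw [PC, mc_ci hf]
  rfl

end eng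

/-! ### The parabolic of the plane -/

section par

variable {k : Type} [NontriviallyNormedField k]

open Vale.Agent.P092.RC (GG YY y0)

/-- The stabiliser of the base point for the wall element `b = (bw w)⁻¹ = diag(w², w⁻¹, w⁻¹)`. -/
theorem dec_bw {w : kˣ} (hw : ‖(w : k)‖ < 1) (p : GG k 2) (hp : p • (y0 : YY k 2) = y0) :
    ∃ d n : GG k 2, p = d * n ∧ (SD.bw w)⁻¹ * d = d * (SD.bw w)⁻¹ ∧
      Tendsto (fun N : ℕ => ((SD.bw w)⁻¹) ^ N * n * (((SD.bw w)⁻¹) ^ N)⁻¹) atTop (𝓝 1) := by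
  obtain ⟨v, x, y, h1, h2⟩ := H142.stab_dec (g := p) hp w
  refine ⟨v, H142.nr x y, h2, ?_, ?_⟩
  · have h3 : Commute v (SD.bw w) := h1
    exact h3.inv_right.symm
  · refine (H142.nr_tendsto hw x y).congr fun N => ?_
    rw [inv_pow, inv_inv]

end par

end Vale.Agent.P092.H978.LimC
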