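import Vale.Agent.P092.H978.LimC
import Vale.Agent.P092.RC.Pict
import Vale.Agent.P092.H776.Leg1

/-!
P092 (helper978), Team C, block A-ASM: transport of the output of the engine from the row model to the
picture `KC`: the fields `lim` and `app` of `RC.Half`.
-/

set_option linter.all false

open scoped InnerProductSpace ENNReal
open Filter Topology ContinuousLinearMap MeasureTheory TopologicalSpace

namespace Vale.Agent.P092.H978.HalfC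

open Vale.Agent.P092.H859.CL
open Vale.Agent.P092.H553 (ind ind_nonneg ind_le_one abs_ind_le ind_pos ind_neg)
open Vale.Agent.P092.RC
open Vale.Agent.P092.H978.LimC
open Vale.Agent.P092.SR Vale.Agent.P092.H160
open Vale.Agent.P092.H432 (lx ep mp ARep)

section abs

variable {Γ D K K' Y : Type} [Group Γ] [Group D] [TopologicalSpace D] [NormedAddCommGroup K]
  [InnerProductSpace ℂ K] [CompleteSpace K] [NormedAddCommGroup K']
  [InnerProductSpace ℂ K'] [CompleteSpace K'] [TopologicalSpace Y] [CompactSpace Y] [SMul Γ Y]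
  {mp : (Γ → ℝ) → (K →L[ℂ] K)} {R : D → (K →L[ℂ] K)} {lam : Γ → (K →L[ℂ] K)}
  {W : Set (K →L[ℂ] K)} {G1 G2 : Γ → ℝ} {bp : Γ → Y} {b : D}
  {β : C(Y, ℂ) →⋆ₐ[ℂ] (K →L[ℂ] K)}

/-- the transported homomorphism -/
noncomputable def bj (u : K ≃ₗᵢ[ℂ] K') (β : C(Y, ℂ) →⋆ₐ[ℂ] (K →L[ℂ] K)) :
    C(Y, ℂ) →⋆ₐ[ℂ] (K' →L[ℂ] K') :=
  ((cj u : (K →L[ℂ] K) ≃⋆ₐ[ℂ] (K' →L[ℂ] K')) : (K →L[ℂ] K) →⋆ₐ[ℂ] (K' →L[ℂ] K')).comp β

theorem bj_ap (u : K ≃ₗᵢ[ℂ] K') (β : C(Y, ℂ) →⋆ₐ[ℂ] (K →L[ℂ] K)) (f : C(Y, ℂ)) :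
    bj u β f = cj u (β f) := rfl

theorem cj_smul (u : K ≃ₗᵢ[ℂ] K') (c : ℂ) (T : K →L[ℂ] K) : cj u (c • T) = c • cj u T := by
  ext ξ
  obtain ⟨η, rfl⟩ := u.surjective ξ
  rw [cj_ap, smul_apply, smul_apply, cj_ap, map_smul]

theorem mc_cj (u : K ≃ₗᵢ[ℂ] K') (F : Γ → ℂ) :
    mc (fun F => cj u (mp F)) F = cj u (mc mp F) := by
  rw [mc, mc, map_add, cj_smul]

theorem PC_cj (u : K ≃ₗᵢ[ℂ] K') (w : D) (F : Γ → ℂ) :
    PC (fun F => cj u (mp F)) (fun g => cj u (R g)) w F = cj u (PC mp R w F) := by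
  rw [PC, PC, mc_cj, map_mul, map_mul]

theorem fn_cj (u : K ≃ₗᵢ[ℂ] K') (hf : Fn mp) : Fn (fun F => cj u (mp F)) where
  one := by
    change cj u (mp fun _ => 1) = 1
    rw [hf.one, map_one]
  add := fun {F G C D} hF hG => by
    rw [hf.add hF hG, map_add]
  smul := fun c {F C} hF => by
    rw [hf.smul c hF, cj_smul]
  mul := fun {F G C D} hF hG => by
    rw [hf.mul hF hG, map_mul]
  adj := fun {F C} hF => by
    rw [adjoint_cj, hf.adj hF]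

/-- Transport of the output of the engine along a unitary. -/
theorem engOut_cj (u : K ≃ₗᵢ[ℂ] K') (h : EngOut mp R lam W b G1 G2 bp β) :
    EngOut (fun F => cj u (mp F)) (fun g => cj u (R g)) (fun γ => cj u (lam γ)) (cj u '' W) b
      G1 G2 bp (bj u β) where
  lim := fun f ξ => by
    obtain ⟨η, rfl⟩ := u.surjective ξ
    have h1 := (u.continuous.tendsto _).comp (h.lim f η)
    rw [bj_ap, cj_ap]
    refine h1.congr fun w => ?_
    rw [PC_cj, cj_ap]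
    rfl
  cov := fun s f f' hf => by
    rw [bj_ap, bj_ap, ← map_mul, ← map_mul, h.cov s f f' hf]
  cm := by
    rintro _ ⟨a, ha, rfl⟩ f
    rw [bj_ap, ← map_mul, ← map_mul, h.cm a ha]
  contr := fun n hn f => by
    rw [bj_ap, ← map_mul, ← map_mul, h.contr n hn]
  cent := fun v hv f => by
    rw [bj_ap, ← map_mul, ← map_mul, h.cent v hv]
  tail := fun ξ ε hε => by
    obtain ⟨η, rfl⟩ := u.surjective ξ
    obtain ⟨r, hr⟩ := h.tail η ε hε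
    refine ⟨r, hr.mono fun N hN => ?_⟩
    change ‖cj u (st mp {g | r < G2 g}) (cj u (R (b ^ N)) (u η))‖ ≤ ε
    rw [cj_ap, cj_ap, u.norm_map]
    exact hN

end abs

section con

variable {k : Type} [NontriviallyNormedField k] {m : ℕ} [LocallyCompactSpace (GG k m)]
  [SecondCountableTopology (GG k m)] [MeasurableSpace (GG k m)] [BorelSpace (GG k m)]
  {Γ : Subgroup (GG k m)} [DiscreteTopology Γ] [Countable Γ] [MeasurableSpace (GG k m ⧸ Γ)]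
  [BorelSpace (GG k m ⧸ Γ)] {ν : Measure (GG k m ⧸ Γ)} [IsProbabilityMeasure ν]
  (hν : ∀ g : GG k m, ν.map (fun x => g • x) = ν)
  {Λ : Type} [Group Λ] {α : Γ →* (Ell2 Λ →L[ℂ] Ell2 Λ)} (hα : Frame α)

/-- the multiplication operators of the row model -/
noncomputable abbrev mpR : (Γ → ℝ) → (KR hν →L[ℂ] KR hν) :=
  (H538.fst (H790.baseL (H85.cdat ν hν).μ (Γ × Γ) Unit)).mp

/-- the multiplication operators of the picture -/
noncomputable def mpC (F : Γ → ℝ) : KC hν Λ →L[ℂ] KC hν Λ := cj (JC hν hα) (mpR hν F)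

theorem mpC_eq {F : Γ → ℝ} {C : ℝ} (hF : ∀ g, |F g| ≤ C) :
    mpC hν hα F = cst hν (tens (AF hα F) 1) := cj_JC_mp hν hα hF

/-- the coefficients -/
theorem cj_WL : cj (JC hν hα) '' (H776.Leg1.WL (H85.cdat ν hν) Γ Γ Unit) =
    XC hν Λ ∪ Set.range (lamC hν (RR₂ α)) := by
  ext T
  constructor
  · rintro ⟨_, ⟨S, hS, rfl⟩ | ⟨g, rfl⟩, rfl⟩
    · exact Or.inl ⟨S, hS, cj_JC_ind hν hα hS⟩
    · exact Or.inr ⟨g, (cj_JC_lam₂ hν hα g).symm⟩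
  · rintro (⟨S, hS, rfl⟩ | ⟨g, rfl⟩)
    · exact ⟨_, Or.inl ⟨S, hS, rfl⟩, cj_JC_ind hν hα hS⟩
    · exact ⟨_, Or.inr ⟨g, rfl⟩, cj_JC_lam₂ hν hα g⟩

variable {Y : Type} [TopologicalSpace Y] [CompactSpace Y] [sa : SMul Γ Y] {G1 G2 : Γ → ℝ}
  {bp : Γ → Y} {b : GG k m} {β : C(Y, ℂ) →⋆ₐ[ℂ] (KR hν →L[ℂ] KR hν)}

/-- **The output of the engine on the picture `KC`.** -/
theorem engC (h : EngOut (mpR hν) (H790.Ri (H85.cdat ν hν) (VR hα))
      (fun γ : Γ => H790.lxt (H85.cdat ν hν).μ (γ, (1 : Γ)))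
      (H776.Leg1.WL (H85.cdat ν hν) Γ Γ Unit) b G1 G2 bp β) :
    EngOut (mpC hν hα) (fun g => piC hν hα g) (fun γ => lamC hν (RR₁ α) γ)
      (XC hν Λ ∪ Set.range (lamC hν (RR₂ α))) b G1 G2 bp (bj (JC hν hα) β) := by
  have h1 := engOut_cj (JC hν hα) h
  rw [cj_WL] at h1
  have e1 : (fun g => cj (JC hν hα) (H790.Ri (H85.cdat ν hν) (VR hα) g)) =
      fun g => piC hν hα g := funext fun g => cj_JC_pi hν hα g
  have e2 : (fun γ : Γ => cj (JC hν hα) (H790.lxt (H85.cdat ν hν).μ (γ, (1 : Γ)))) =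
      fun γ => lamC hν (RR₁ α) γ := funext fun γ => cj_JC_lam₁ hν hα γ
  rw [e1, e2] at h1
  exact h1

theorem fn_mpC (hf : Fn (mpR hν)) : Fn (mpC hν hα) := fn_cj (JC hν hα) hf

/-- **The field `app` of `RC.Half`**, for a general space of base points. -/
theorem app_C (hf : Fn (mpR hν)) (h : EngOut (mpC hν hα) (fun g => piC hν hα g)
      (fun γ => lamC hν (RR₁ α) γ) (XC hν Λ ∪ Set.range (lamC hν (RR₂ α))) b G1 G2 bp
      (bj (JC hν hα) β)) (C : Clopens Y) :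
    ∃ A : ℕ → (Ell2 Λ →L[ℂ] Ell2 Λ),
      (∃ B : ℝ, ∀ n, ‖tens (A n) (1 : Ell2 Λ →L[ℂ] Ell2 Λ)‖ ≤ B) ∧
      ∀ ξ, Tendsto (fun n => piC hν hα (b ^ n)⁻¹ (cst hν (tens (A n) 1) (piC hν hα (b ^ n) ξ)))
        atTop (𝓝 (bj (JC hν hα) β (ci C) ξ)) := by
  refine ⟨fun _ => AF hα (ind fun g => g ∈ cn G1 G2 bp (C : Set Y)), ⟨_, fun _ => le_rfl⟩,
    fun ξ => ?_⟩
  have h1 := app_eng h (fn_mpC hν hα hf) C ξ
  refine h1.congr fun n => ?_
  have h2 : st (mpC hν hα) (cn G1 G2 bp (C : Set Y)) =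
      cst hν (tens (AF hα (ind fun g => g ∈ cn G1 G2 bp (C : Set Y))) 1) :=
    mpC_eq hν hα (abs_ind_le _)
  rw [h2]

end con

section pt

variable {k : Type} [NontriviallyNormedField k] [LocallyCompactSpace (GG k 2)]
  [SecondCountableTopology (GG k 2)] [MeasurableSpace (GG k 2)] [BorelSpace (GG k 2)]
  {Γ : Subgroup (GG k 2)} [DiscreteTopology Γ] [Countable Γ] [MeasurableSpace (GG k 2 ⧸ Γ)]
  [BorelSpace (GG k 2 ⧸ Γ)] {ν : Measure (GG k 2 ⧸ Γ)} [IsProbabilityMeasure ν]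
  (hν : ∀ g : GG k 2, ν.map (fun x => g • x) = ν)
  {Λ : Type} [Group Λ] {α : Γ →* (Ell2 Λ →L[ℂ] Ell2 Λ)} (hα : Frame α)
  [CompactSpace (YY k 2)] [sa : SMul Γ (YY k 2)] {G1 G2 : Γ → ℝ}
  {bp : Γ → YY k 2} {β : C(YY k 2, ℂ) →⋆ₐ[ℂ] (KR hν →L[ℂ] KR hν)} {w : kˣ}

/-- **The fields `lim` and `app` of `RC.Half`** from the output of the engine on the row model. -/
theorem half_lim_app [ContinuousConstSMul (GG k 2) (YY k 2)] (hw : ‖(w : k)‖ < 1)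
    (hf : Fn (mpR hν)) {q : Γ →* GG k 2} (hq : ∀ (γ : Γ) (y : YY k 2), sa.smul γ y = q γ • y)
    (h : EngOut (mpR hν) (H790.Ri (H85.cdat ν hν) (VR hα))
      (fun γ : Γ => H790.lxt (H85.cdat ν hν).μ (γ, (1 : Γ)))
      (H776.Leg1.WL (H85.cdat ν hν) Γ Γ Unit) (SD.bw w)⁻¹ G1 G2 bp β) :
    Lim (piC hν hα) (lamC hν (RR₁ α)) (XC hν Λ ∪ Set.range (lamC hν (RR₂ α))) q y0
      (fun C => bj (JC hν hα) β (ci C)) ∧
    ∀ C : Clopens (YY k 2), ∃ A : ℕ → (Ell2 Λ →L[ℂ] Ell2 Λ),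
      (∃ B : ℝ, ∀ n, ‖tens (A n) (1 : Ell2 Λ →L[ℂ] Ell2 Λ)‖ ≤ B) ∧
      ∀ ξ, Tendsto (fun n => piC hν hα (((SD.bw w)⁻¹ : GG k 2) ^ n)⁻¹
        (cst hν (tens (A n) 1) (piC hν hα (((SD.bw w)⁻¹ : GG k 2) ^ n) ξ)))
        atTop (𝓝 (bj (JC hν hα) β (ci C) ξ)) := by
  have h1 := engC hν hα h
  exact ⟨lim_rc h1 hq (dec_bw hw), fun C => app_C hν hα hf h1 C⟩

end pt

end Vale.Agent.P092.H978.HalfC
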