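import Mathlib.Analysis.CStarAlgebra.Basic
import Mathlib.Algebra.Star.StarAlgHom
import Mathlib.Analysis.CStarAlgebra.Classes
import Mathlib.Topology.Algebra.Module.Basic
import Mathlib.Analysis.Normed.Group.Quotient
import Mathlib.MeasureTheory.Integral.Bochner.ContinuousLinearMap
import Mathlib.MeasureTheory.Integral.Prod
import Mathlib.Tactic

/-!
The extension step (5) of Theorem C (#3269): a bounded pairing `P ⊆ A × B` whose closed span is a
star subalgebra, with dense first projection, is the graph of a star homomorphism `A → B`.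
-/

open Filter Topology

namespace Vale.Agent.P092.H978

section integral

open MeasureTheory

/-- a Bochner integral of a function with values in a closed subspace is in this subspace -/
theorem integral_mem_of_isClosed {F : Type*} [NormedAddCommGroup F] [NormedSpace ℂ F]
    [CompleteSpace F] (G : Submodule ℂ F) (hG : IsClosed (G : Set F)) {Y : Type*}
    [MeasurableSpace Y] {ν : Measure Y} {f : Y → F} (hf : ∀ᵐ y ∂ν, f y ∈ G) :
    ∫ y, f y ∂ν ∈ G := by
  by_cases hint : Integrable f ν
  · have hG' : IsClosed (G : Set F) := hG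
    have h1 : G.mkQL (∫ y, f y ∂ν) = 0 := by
      rw [← ContinuousLinearMap.integral_comp_comm G.mkQL hint]
      refine integral_eq_zero_of_ae ?_
      filter_upwards [hf] with y hy
      rw [Submodule.mkQL_apply]
      exact (Submodule.Quotient.mk_eq_zero G).2 hy
    rw [Submodule.mkQL_apply] at h1
    exact (Submodule.Quotient.mk_eq_zero G).1 h1
  · rw [integral_undef hint]
    exact G.zero_mem

/-- the same for pairs of functions -/
theorem integral_pair_mem {A B : Type*} [NormedAddCommGroup A] [NormedSpace ℂ A]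
    [CompleteSpace A] [NormedAddCommGroup B] [NormedSpace ℂ B]
    [CompleteSpace B] (G : Submodule ℂ (A × B)) (hG : IsClosed (G : Set (A × B))) {Y : Type*}
    [MeasurableSpace Y] {ν : Measure Y} {f : Y → A} {g : Y → B} (hf : Integrable f ν)
    (hg : Integrable g ν) (hfg : ∀ᵐ y ∂ν, (f y, g y) ∈ G) :
    (∫ y, f y ∂ν, ∫ y, g y ∂ν) ∈ G := by
  have h1 := integral_mem_of_isClosed G hG hfg
  have h2 : ∫ y, (f y, g y) ∂ν = (∫ y, f y ∂ν, ∫ y, g y ∂ν) := by
    exact integral_pair hf hg
  rw [h2] at h1
  exact h1

end integral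

section ext

variable {A B : Type*} [NonUnitalCStarAlgebra A] [NonUnitalCStarAlgebra B]

/-- the norm bound passes to the closure -/
theorem bound_closure {G : Submodule ℂ (A × B)} {C : ℝ} (hC : ∀ x ∈ G, ‖x.2‖ ≤ C * ‖x.1‖) :
    ∀ x ∈ G.topologicalClosure, ‖x.2‖ ≤ C * ‖x.1‖ := by
  intro x hx
  have hcl : IsClosed {x : A × B | ‖x.2‖ ≤ C * ‖x.1‖} :=
    isClosed_le continuous_snd.norm (continuous_const.mul continuous_fst.norm)
  have : (G : Set (A × B)) ⊆ {x : A × B | ‖x.2‖ ≤ C * ‖x.1‖} := fun y hy => hC y hy
  exact closure_minimal this hcl hx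

/-- products of elements of the closed span -/
theorem mul_mem_closure {P : Set (A × B)}
    (hmul : ∀ x ∈ P, ∀ y ∈ P, x * y ∈ (Submodule.span ℂ P).topologicalClosure) :
    ∀ x ∈ (Submodule.span ℂ P).topologicalClosure,
      ∀ y ∈ (Submodule.span ℂ P).topologicalClosure,
        x * y ∈ (Submodule.span ℂ P).topologicalClosure := by
  set G := (Submodule.span ℂ P).topologicalClosure with hG
  have hcl : IsClosed (G : Set (A × B)) := Submodule.isClosed_topologicalClosure _
  have h1 : ∀ x ∈ P, ∀ y ∈ Submodule.span ℂ P, x * y ∈ G := by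
    intro x hx y hy
    induction hy using Submodule.span_induction with
    | mem y hy => exact hmul x hx y hy
    | zero => rw [mul_zero]; exact G.zero_mem
    | add y z _ _ h1 h2 => rw [mul_add]; exact G.add_mem h1 h2
    | smul c y _ h1 => rw [mul_smul_comm]; exact G.smul_mem c h1
  have h2 : ∀ x ∈ Submodule.span ℂ P, ∀ y ∈ Submodule.span ℂ P, x * y ∈ G := by
    intro x hx y hy
    induction hx using Submodule.span_induction with
    | mem x hx => exact h1 x hx y hy
    | zero => rw [zero_mul]; exact G.zero_mem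
    | add x z _ _ h1 h2 => rw [add_mul]; exact G.add_mem h1 h2
    | smul c x _ h1 => rw [smul_mul_assoc]; exact G.smul_mem c h1
  have h3 : ∀ x ∈ Submodule.span ℂ P, ∀ y ∈ G, x * y ∈ G := by
    intro x hx y hy
    have : IsClosed {y : A × B | x * y ∈ G} := hcl.preimage (continuous_const.mul continuous_id)
    exact closure_minimal (fun y hy => h2 x hx y hy) this hy
  intro x hx y hy
  have : IsClosed {x : A × B | x * y ∈ G} := hcl.preimage (continuous_id.mul continuous_const)
  exact closure_minimal (fun x hx => h3 x hx y hy) this hx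

/-- stars of elements of the closed span -/
theorem star_mem_closure {P : Set (A × B)}
    (hstar : ∀ x ∈ P, star x ∈ (Submodule.span ℂ P).topologicalClosure) :
    ∀ x ∈ (Submodule.span ℂ P).topologicalClosure,
        star x ∈ (Submodule.span ℂ P).topologicalClosure := by
  set G := (Submodule.span ℂ P).topologicalClosure with hG
  have hcl : IsClosed (G : Set (A × B)) := Submodule.isClosed_topologicalClosure _
  have h1 : ∀ x ∈ Submodule.span ℂ P, star x ∈ G := by
    intro x hx
    induction hx using Submodule.span_induction with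
    | mem x hx => exact hstar x hx
    | zero => rw [star_zero]; exact G.zero_mem
    | add x z _ _ h1 h2 => rw [star_add]; exact G.add_mem h1 h2
    | smul c x _ h1 => rw [star_smul]; exact G.smul_mem _ h1
  intro x hx
  have : IsClosed {x : A × B | star x ∈ G} := hcl.preimage continuous_star
  exact closure_minimal (fun x hx => h1 x hx) this hx

/-- **[EXT]** -/
theorem exists_starHom (P : Set (A × B)) (C : ℝ)
    (hC : ∀ x ∈ Submodule.span ℂ P, ‖x.2‖ ≤ C * ‖x.1‖)
    (hmul : ∀ x ∈ P, ∀ y ∈ P, x * y ∈ (Submodule.span ℂ P).topologicalClosure)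
    (hstar : ∀ x ∈ P, star x ∈ (Submodule.span ℂ P).topologicalClosure)
    (hd : Dense ((fun x : A × B => x.1) '' (Submodule.span ℂ P : Set (A × B)))) :
    ∃ E : A →⋆ₙₐ[ℂ] B, (∀ x ∈ P, E x.1 = x.2) ∧
      ∀ x ∈ (Submodule.span ℂ P).topologicalClosure, E x.1 = x.2 := by
  set G := (Submodule.span ℂ P).topologicalClosure with hG
  have hcl : IsClosed (G : Set (A × B)) := Submodule.isClosed_topologicalClosure _
  have hPG : Submodule.span ℂ P ≤ G := Submodule.le_topologicalClosure _
  have hb : ∀ x ∈ G, ‖x.2‖ ≤ C * ‖x.1‖ := bound_closure hC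
  have huniq : ∀ x ∈ G, ∀ y ∈ G, x.1 = y.1 → x.2 = y.2 := by
    intro x hx y hy h
    have h1 := hb (x - y) (G.sub_mem hx hy)
    rw [Prod.fst_sub, h, sub_self, norm_zero, mul_zero] at h1
    have h2 : ‖(x - y).2‖ = 0 := le_antisymm h1 (norm_nonneg _)
    rw [norm_eq_zero, Prod.snd_sub, sub_eq_zero] at h2
    exact h2
  have hsurj : ∀ a : A, ∃ x ∈ G, x.1 = a := by
    have : CompleteSpace G := hcl.completeSpace_coe
    set F : G → A := fun x => x.1.1 with hF
    have hFlip : AntilipschitzWith (max 1 C).toNNReal F := by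
      refine AntilipschitzWith.of_le_mul_dist fun x y => ?_
      have h1 : 0 ≤ max 1 C := le_trans zero_le_one (le_max_left _ _)
      rw [Real.coe_toNNReal _ h1]
      have h2 := hb (x.1 - y.1) (G.sub_mem x.2 y.2)
      have e1 : dist x y = ‖x.1 - y.1‖ := by rw [Subtype.dist_eq, dist_eq_norm]
      have e2 : dist (F x) (F y) = ‖(x.1 - y.1).1‖ := by rw [dist_eq_norm]; rfl
      rw [e1, e2, Prod.norm_def]
      refine max_le ?_ (h2.trans ?_)
      · exact le_mul_of_one_le_left (norm_nonneg _) (le_max_left _ _)
      · exact mul_le_mul_of_nonneg_right (le_max_right _ _) (norm_nonneg _)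
    have hFu : UniformContinuous F := uniformContinuous_fst.comp uniformContinuous_subtype_val
    have hFc := hFlip.isClosed_range hFu
    have hFd : DenseRange F := by
      refine hd.mono ?_
      rintro a ⟨x, hx, rfl⟩
      exact ⟨⟨x, hPG hx⟩, rfl⟩
    intro a
    have ha : a ∈ Set.range F := by
      rw [← hFc.closure_eq]
      exact hFd a
    obtain ⟨x, rfl⟩ := ha
    exact ⟨x.1, x.2, rfl⟩
  choose x hx hxa using hsurj
  have hE : ∀ y ∈ G, (x y.1).2 = y.2 := fun y hy => huniq _ (hx _) _ hy (hxa _)
  refine ⟨{ toFun := fun a => (x a).2, map_smul' := ?_, map_zero' := ?_, map_add' := ?_,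
            map_mul' := ?_, map_star' := ?_ }, ?_, ?_⟩
  · intro c a
    have h1 := hE _ (G.smul_mem c (hx a))
    rw [Prod.smul_fst, hxa] at h1
    exact h1
  · have h1 := hE _ G.zero_mem
    exact h1
  · intro a b
    have h1 := hE _ (G.add_mem (hx a) (hx b))
    rw [Prod.fst_add, hxa, hxa] at h1
    exact h1
  · intro a b
    have h1 := hE _ (mul_mem_closure hmul _ (hx a) _ (hx b))
    rw [Prod.fst_mul, hxa, hxa] at h1
    exact h1
  · intro a
    have h1 := hE _ (star_mem_closure hstar _ (hx a))
    rw [Prod.fst_star, hxa] at h1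
    exact h1
  · intro y hy
    exact hE y (hPG (Submodule.subset_span hy))
  · intro y hy
    exact hE y hy

end ext

end Vale.Agent.P092.H978
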