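import Vale.Agent.P092.H978.Supp
import Vale.Agent.P092.H978.Ext
import Mathlib.MeasureTheory.Function.L2Space

/-!
Tools for the assembly of Theorem C (#3269): numerical radius, coefficients in `C₀`, the exchange
formula from dense subsets, equality in the Cauchy–Schwarz inequality.
-/

open scoped ZeroAtInfty InnerProductSpace
open Filter Topology

namespace Vale.Agent.P092.H978

section numrad

variable {L : Type*} [NormedAddCommGroup L] [InnerProductSpace ℂ L]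

/-- the numerical radius bound on a dense set -/
theorem norm_le_of_numRadius (T : L →L[ℂ] L) {C : ℝ} (hC : 0 ≤ C) {D : Set L} (hD : Dense D)
    (h : ∀ x ∈ D, ‖⟪x, T x⟫_ℂ‖ ≤ C * ‖x‖ ^ 2) : ‖T‖ ≤ 2 * C := by
  have h1 : ∀ x : L, ‖⟪x, T x⟫_ℂ‖ ≤ C * ‖x‖ ^ 2 := by
    intro x
    have hcl : IsClosed {x : L | ‖⟪x, T x⟫_ℂ‖ ≤ C * ‖x‖ ^ 2} := by
      refine isClosed_le ?_ ?_
      · exact (continuous_id.inner T.continuous).norm
      · exact continuous_const.mul (continuous_norm.pow 2)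
    exact hcl.closure_subset_iff.2 h (hD x)
  -- polarization
  have hpol : ∀ x y : L, 4 * ⟪y, T x⟫_ℂ = ⟪x + y, T (x + y)⟫_ℂ - ⟪x - y, T (x - y)⟫_ℂ
      + Complex.I * ⟪x + Complex.I • y, T (x + Complex.I • y)⟫_ℂ
      - Complex.I * ⟪x - Complex.I • y, T (x - Complex.I • y)⟫_ℂ := by
    intro x y
    have hI : Complex.I * Complex.I = -1 := Complex.I_mul_I
    simp only [map_add, map_sub, map_smul, inner_add_left, inner_add_right, inner_sub_left,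
      inner_sub_right, inner_smul_left, inner_smul_right, Complex.conj_I]
    linear_combination (2 * ⟪y, T x⟫_ℂ - 2 * ⟪x, T y⟫_ℂ) * hI
  have hxy : ∀ x y : L, ‖⟪y, T x⟫_ℂ‖ ≤ C * (‖x‖ ^ 2 + ‖y‖ ^ 2) := by
    intro x y
    have e1 := h1 (x + y)
    have e2 := h1 (x - y)
    have e3 := h1 (x + Complex.I • y)
    have e4 := h1 (x - Complex.I • y)
    have p1 : ‖x + y‖ ^ 2 + ‖x - y‖ ^ 2 = 2 * (‖x‖ ^ 2 + ‖y‖ ^ 2) :=
      parallelogram_law_with_norm ℂ x y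
    have p2 : ‖x + Complex.I • y‖ ^ 2 + ‖x - Complex.I • y‖ ^ 2
        = 2 * (‖x‖ ^ 2 + ‖Complex.I • y‖ ^ 2) :=
      parallelogram_law_with_norm ℂ x (Complex.I • y)
    have p3 : ‖Complex.I • y‖ = ‖y‖ := by rw [norm_smul, Complex.norm_I, one_mul]
    rw [p3] at p2
    have e5 : ‖4 * ⟪y, T x⟫_ℂ‖ ≤ C * ‖x + y‖ ^ 2 + C * ‖x - y‖ ^ 2
        + C * ‖x + Complex.I • y‖ ^ 2 + C * ‖x - Complex.I • y‖ ^ 2 := by
      rw [hpol x y]
      refine (norm_sub_le _ _).trans (add_le_add ?_ ?_)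
      · refine (norm_add_le _ _).trans (add_le_add ?_ ?_)
        · exact (norm_sub_le _ _).trans (add_le_add e1 e2)
        · rw [norm_mul, Complex.norm_I, one_mul]; exact e3
      · rw [norm_mul, Complex.norm_I, one_mul]; exact e4
    rw [norm_mul] at e5
    have e6 : ‖(4 : ℂ)‖ = 4 := by simp
    rw [e6] at e5
    nlinarith
  refine ContinuousLinearMap.opNorm_le_of_re_inner_le (𝕜 := ℂ) (by positivity) fun x y hx hy => ?_
  have e := hxy x y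
  rw [hx, hy] at e
  calc RCLike.re ⟪T x, y⟫_ℂ ≤ ‖⟪T x, y⟫_ℂ‖ := RCLike.re_le_norm _
    _ = ‖⟪y, T x⟫_ℂ‖ := norm_inner_symm _ _
    _ ≤ 2 * C := by linarith

end numrad

section coef

variable {H : Type*} [Group H] [TopologicalSpace H]
variable {L : Type*} [NormedAddCommGroup L] [InnerProductSpace ℂ L]

/-- a set with dense range of coefficients in `C₀`: all coefficients are in `C₀` -/
theorem coef_zero_at_infty {X : Type*} [TopologicalSpace X] (U : X → (L →L[ℂ] L))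
    (hU : ∀ t v, ‖U t v‖ ≤ ‖v‖) {D : Set L} (hD : Dense D)
    (h : ∀ b ∈ D, ∀ c ∈ D, Tendsto (fun t => ⟪c, U t b⟫_ℂ) (cocompact X) (𝓝 0)) (b c : L) :
    Tendsto (fun t => ⟪c, U t b⟫_ℂ) (cocompact X) (𝓝 0) := by
  rw [Metric.tendsto_nhds]
  intro ε hε
  set δ : ℝ := ε / (4 * (‖b‖ + ‖c‖ + 1)) with hδ
  have hδ0 : 0 < δ := by positivity
  set δ' : ℝ := min δ 1 with hδ'
  have hδ'0 : 0 < δ' := lt_min hδ0 one_pos
  obtain ⟨b', hb', hbb⟩ := hD.exists_dist_lt b hδ'0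
  obtain ⟨c', hc', hcc⟩ := hD.exists_dist_lt c hδ'0
  rw [dist_eq_norm] at hbb hcc
  have h1 := (Metric.tendsto_nhds.1 (h b' hb' c' hc')) (ε / 4) (by positivity)
  filter_upwards [h1] with t ht
  rw [dist_zero_right] at ht ⊢
  have e : ⟪c, U t b⟫_ℂ = ⟪c', U t b'⟫_ℂ + ⟪c', U t (b - b')⟫_ℂ + ⟪c - c', U t b⟫_ℂ := by
    rw [map_sub, inner_sub_left, inner_sub_right]
    ring
  have n1 : ‖⟪c', U t (b - b')⟫_ℂ‖ ≤ ‖c'‖ * ‖b - b'‖ :=
    (norm_inner_le_norm _ _).trans (mul_le_mul_of_nonneg_left (hU _ _) (norm_nonneg _))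
  have n2 : ‖⟪c - c', U t b⟫_ℂ‖ ≤ ‖c - c'‖ * ‖b‖ :=
    (norm_inner_le_norm _ _).trans (mul_le_mul_of_nonneg_left (hU _ _) (norm_nonneg _))
  have n3 : ‖c'‖ ≤ ‖c‖ + 1 := by
    have : ‖c'‖ ≤ ‖c‖ + ‖c - c'‖ := by
      have := norm_sub_norm_le c' c
      rw [norm_sub_rev] at this
      linarith
    have h5 : δ' ≤ 1 := min_le_right _ _
    linarith
  have n4 : ‖c'‖ * ‖b - b'‖ ≤ (‖c‖ + 1) * δ :=
    mul_le_mul n3 (hbb.le.trans (min_le_left _ _)) (norm_nonneg _) (by positivity)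
  have n5 : ‖c - c'‖ * ‖b‖ ≤ δ * ‖b‖ :=
    mul_le_mul_of_nonneg_right (hcc.le.trans (min_le_left _ _)) (norm_nonneg _)
  have n6 : (‖c‖ + 1) * δ + δ * ‖b‖ ≤ ε / 4 := by
    rw [hδ]
    rw [show (‖c‖ + 1) * (ε / (4 * (‖b‖ + ‖c‖ + 1))) + ε / (4 * (‖b‖ + ‖c‖ + 1)) * ‖b‖
      = ε / 4 by field_simp; ring]
  rw [e]
  refine lt_of_le_of_lt (norm_add₃_le) ?_
  linarith

/-- the coefficient as an element of `C₀` -/
noncomputable def coef {X : Type*} [TopologicalSpace X] (U : X → (L →L[ℂ] L))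
    (hc : ∀ v, Continuous fun t => U t v)
    (h0 : ∀ b c : L, Tendsto (fun t => ⟪c, U t b⟫_ℂ) (cocompact X) (𝓝 0)) (b c : L) :
    C₀(X, ℂ) where
  toFun t := ⟪c, U t b⟫_ℂ
  continuous_toFun := continuous_const.inner (hc b)
  zero_at_infty' := h0 b c

@[simp] theorem coef_apply {X : Type*} [TopologicalSpace X] (U : X → (L →L[ℂ] L))
    (hc : ∀ v, Continuous fun t => U t v)
    (h0 : ∀ b c : L, Tendsto (fun t => ⟪c, U t b⟫_ℂ) (cocompact X) (𝓝 0)) (b c : L) (t : X) :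
    coef U hc h0 b c t = ⟪c, U t b⟫_ℂ := rfl

theorem norm_coef_le {X : Type*} [TopologicalSpace X] (U : X → (L →L[ℂ] L))
    (hU : ∀ t v, ‖U t v‖ ≤ ‖v‖) (hc : ∀ v, Continuous fun t => U t v)
    (h0 : ∀ b c : L, Tendsto (fun t => ⟪c, U t b⟫_ℂ) (cocompact X) (𝓝 0)) (b c : L) :
    ‖coef U hc h0 b c‖ ≤ ‖b‖ * ‖c‖ := by
  rw [← ZeroAtInftyContinuousMap.norm_toBCF_eq_norm]
  refine (BoundedContinuousFunction.norm_le (by positivity)).2 fun x => ?_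
  change ‖⟪c, U x b⟫_ℂ‖ ≤ ‖b‖ * ‖c‖
  rw [mul_comm]
  exact (norm_inner_le_norm _ _).trans (mul_le_mul_of_nonneg_left (hU _ _) (norm_nonneg _))

theorem continuous_coef {X : Type*} [TopologicalSpace X] (U : X → (L →L[ℂ] L))
    (hU : ∀ t v, ‖U t v‖ ≤ ‖v‖) (hc : ∀ v, Continuous fun t => U t v)
    (h0 : ∀ b c : L, Tendsto (fun t => ⟪c, U t b⟫_ℂ) (cocompact X) (𝓝 0)) :
    Continuous fun p : L × L => coef U hc h0 p.1 p.2 := by
  rw [continuous_iff_continuousAt]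
  rintro ⟨b, c⟩
  rw [ContinuousAt, tendsto_iff_norm_sub_tendsto_zero]
  have hb : ∀ p : L × L, ‖coef U hc h0 p.1 p.2 - coef U hc h0 b c‖ ≤
      ‖p.1 - b‖ * ‖p.2‖ + ‖b‖ * ‖p.2 - c‖ := by
    intro p
    have e : coef U hc h0 p.1 p.2 - coef U hc h0 b c =
        coef U hc h0 (p.1 - b) p.2 + coef U hc h0 b (p.2 - c) := by
      ext t
      change ⟪p.2, U t p.1⟫_ℂ - ⟪c, U t b⟫_ℂ = ⟪p.2, U t (p.1 - b)⟫_ℂ + ⟪p.2 - c, U t b⟫_ℂ
      rw [map_sub, inner_sub_right, inner_sub_left]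
      ring
    rw [e]
    exact (norm_add_le _ _).trans (add_le_add (norm_coef_le U hU hc h0 _ _)
      (norm_coef_le U hU hc h0 _ _))
  refine squeeze_zero (fun p => norm_nonneg _) hb ?_
  have hcont : Continuous fun p : L × L => ‖p.1 - b‖ * ‖p.2‖ + ‖b‖ * ‖p.2 - c‖ := by fun_prop
  have := hcont.tendsto (b, c)
  simpa using this

end coef

section exch

variable {H : Type*} [Group H] [TopologicalSpace H] [IsTopologicalGroup H]
variable {L₁ : Type*} [NormedAddCommGroup L₁] [InnerProductSpace ℂ L₁] [CompleteSpace L₁]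
variable {L₂ : Type*} [NormedAddCommGroup L₂] [InnerProductSpace ℂ L₂] [CompleteSpace L₂]

theorem continuous_starHom {X : Type*} [TopologicalSpace X] {B : Type*} [NonUnitalCStarAlgebra B]
    (E : C₀(X, ℂ) →⋆ₙₐ[ℂ] B) : Continuous E :=
  AddMonoidHomClass.continuous_of_bound E 1 fun x => by
    rw [one_mul]; exact NonUnitalStarAlgHom.norm_apply_le E x

/-- **the exchange formula from dense subsets** -/
theorem exch_of_dense (α₁ : H →* (L₁ →L[ℂ] L₁)) (α₂ : H →* (L₂ →L[ℂ] L₂))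
    (hn₁ : ∀ t v, ‖α₁ t v‖ ≤ ‖v‖) (hn₂ : ∀ t v, ‖α₂ t v‖ ≤ ‖v‖)
    (hc₁ : ∀ v, Continuous fun t => α₁ t v) (hc₂ : ∀ v, Continuous fun t => α₂ t v)
    {D₁ : Set L₁} (hD₁ : Dense D₁) {D₂ : Set L₂} (hD₂ : Dense D₂)
    (h0₁ : ∀ b ∈ D₁, ∀ c ∈ D₁, Tendsto (fun t => ⟪c, α₁ t b⟫_ℂ) (cocompact H) (𝓝 0))
    (h0₂ : ∀ x ∈ D₂, ∀ z ∈ D₂, Tendsto (fun t => ⟪z, α₂ t x⟫_ℂ) (cocompact H) (𝓝 0))
    (E₁ : C₀(H, ℂ) →⋆ₙₐ[ℂ] (L₁ →L[ℂ] L₁)) (E₂ : C₀(H, ℂ) →⋆ₙₐ[ℂ] (L₂ →L[ℂ] L₂))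
    (h : ∀ b ∈ D₁, ∀ c ∈ D₁, ∀ x ∈ D₂, ∀ z ∈ D₂, ∀ φ ψ : C₀(H, ℂ),
      (∀ t, φ t = ⟪c, α₁ t b⟫_ℂ) → (∀ t, ψ t = ⟪z, α₂ t⁻¹ x⟫_ℂ) →
      ⟪z, E₂ φ x⟫_ℂ = ⟪c, E₁ ψ b⟫_ℂ) : Exch α₁ α₂ E₁ E₂ := by
  have g1 := coef_zero_at_infty (fun t => α₁ t) hn₁ hD₁ h0₁
  have g2' := coef_zero_at_infty (fun t => α₂ t) hn₂ hD₂ h0₂
  have hinv : Tendsto (fun t : H => t⁻¹) (cocompact H) (cocompact H) :=
    (Homeomorph.inv H).isClosedEmbedding.tendsto_cocompact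
  have g2 : ∀ x z : L₂, Tendsto (fun t => ⟪z, α₂ t⁻¹ x⟫_ℂ) (cocompact H) (𝓝 0) :=
    fun x z => (g2' x z).comp hinv
  have hc₂' : ∀ v, Continuous fun t => α₂ t⁻¹ v := fun v => (hc₂ v).comp continuous_inv
  set F₁ := fun p : L₁ × L₁ => coef (fun t => α₁ t) hc₁ g1 p.1 p.2 with hF₁
  set F₂ := fun p : L₂ × L₂ => coef (fun t => α₂ t⁻¹) hc₂' g2 p.1 p.2 with hF₂
  have cF₁ : Continuous F₁ := continuous_coef _ hn₁ hc₁ g1
  have cF₂ : Continuous F₂ := continuous_coef _ (fun t v => hn₂ t⁻¹ v) hc₂' g2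
  have key : ∀ p : (L₁ × L₁) × (L₂ × L₂), ⟪p.2.2, E₂ (F₁ p.1) p.2.1⟫_ℂ =
      ⟪p.1.2, E₁ (F₂ p.2) p.1.1⟫_ℂ := by
    intro p
    have hd : Dense ((D₁ ×ˢ D₁) ×ˢ (D₂ ×ˢ D₂)) := (hD₁.prod hD₁).prod (hD₂.prod hD₂)
    have hcl : IsClosed {p : (L₁ × L₁) × (L₂ × L₂) | ⟪p.2.2, E₂ (F₁ p.1) p.2.1⟫_ℂ =
        ⟪p.1.2, E₁ (F₂ p.2) p.1.1⟫_ℂ} := by
      refine isClosed_eq ?_ ?_
      · have e1 : Continuous fun p : (L₁ × L₁) × (L₂ × L₂) => E₂ (F₁ p.1) :=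
          (continuous_starHom E₂).comp (cF₁.comp continuous_fst)
        exact (continuous_snd.comp continuous_snd).inner
          (e1.clm_apply (continuous_fst.comp continuous_snd))
      · have e1 : Continuous fun p : (L₁ × L₁) × (L₂ × L₂) => E₁ (F₂ p.2) :=
          (continuous_starHom E₁).comp (cF₂.comp continuous_snd)
        exact (continuous_snd.comp continuous_fst).inner
          (e1.clm_apply (continuous_fst.comp continuous_fst))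
    refine hcl.closure_subset_iff.2 ?_ (hd p)
    rintro ⟨⟨b, c⟩, ⟨x, z⟩⟩ ⟨⟨hb, hc⟩, ⟨hx, hz⟩⟩
    exact h b hb c hc x hx z hz _ _ (fun t => rfl) (fun t => rfl)
  intro b c x z
  exact ⟨F₁ (b, c), F₂ (x, z), fun t => rfl, fun t => rfl, key ((b, c), (x, z))⟩

/-- covariance from a set of functions with dense span -/
theorem cov_of_dense {L : Type*} [NormedAddCommGroup L] [InnerProductSpace ℂ L] [CompleteSpace L]
    (α : H →* (L →L[ℂ] L)) (E : C₀(H, ℂ) →⋆ₙₐ[ℂ] (L →L[ℂ] L)) (P : Set C₀(H, ℂ))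
    (hP : Dense (Submodule.span ℂ P : Set C₀(H, ℂ)))
    (h : ∀ s, ∀ f ∈ P, α s * E f * α s⁻¹ = E (cjF s f)) : Cov α E := by
  intro s f
  have hcj : Continuous (cjF s : C₀(H, ℂ) → C₀(H, ℂ)) := by
    rw [Metric.continuous_iff]
    intro f ε hε
    refine ⟨ε, hε, fun g hg => lt_of_le_of_lt ?_ hg⟩
    rw [dist_eq_norm, dist_eq_norm, ← ZeroAtInftyContinuousMap.norm_toBCF_eq_norm]
    refine (BoundedContinuousFunction.norm_le (norm_nonneg _)).2 fun x => ?_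
    change ‖(g - f) (s⁻¹ * x * s)‖ ≤ _
    have := BoundedContinuousFunction.norm_coe_le_norm (g - f).toBCF (s⁻¹ * x * s)
    rw [ZeroAtInftyContinuousMap.norm_toBCF_eq_norm] at this
    exact this
  refine hP.induction (P := fun f => α s * E f * α s⁻¹ = E (cjF s f)) ?_ ?_ f
  · intro f hf
    induction hf using Submodule.span_induction with
    | mem f hf => exact h s f hf
    | zero =>
      have e : cjF s (0 : C₀(H, ℂ)) = 0 := by ext t; rfl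
      rw [e, map_zero, mul_zero, zero_mul]
    | add f g _ _ h1 h2 =>
      have e : cjF s (f + g) = cjF s f + cjF s g := by ext t; rfl
      rw [e, map_add, map_add, mul_add, add_mul, h1, h2]
    | smul c f _ h1 =>
      have e : cjF s (c • f) = c • cjF s f := by ext t; rfl
      rw [e, map_smul, map_smul, mul_smul_comm, smul_mul_assoc, h1]
  · refine isClosed_eq ?_ ?_
    · exact (continuous_const.mul (continuous_starHom E)).mul continuous_const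
    · exact (continuous_starHom E).comp hcj

end exch

section cs

open MeasureTheory

variable {Y K : Type*} [MeasurableSpace Y] {μ : Measure Y} [NormedAddCommGroup K]
  [InnerProductSpace ℂ K]

theorem integrable_inner_memLp {f g : Y → K} (hf : MemLp f 2 μ) (hg : MemLp g 2 μ) :
    Integrable (fun x => ⟪f x, g x⟫_ℂ) μ := by
  refine (MeasureTheory.L2.integrable_inner (𝕜 := ℂ) (hf.toLp f) (hg.toLp g)).congr ?_
  filter_upwards [hf.coeFn_toLp, hg.coeFn_toLp] with x h1 h2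
  rw [h1, h2]

/-- **equality in the Cauchy–Schwarz inequality** -/
theorem ae_eq_of_cs {f g : Y → K} (hf : MemLp f 2 μ) (hg : MemLp g 2 μ) {A : ℝ}
    (h1 : ∫ y, ‖f y‖ ^ 2 ∂μ ≤ A) (h2 : ∫ y, ‖g y‖ ^ 2 ∂μ ≤ A)
    (h3 : A ≤ (∫ y, ⟪f y, g y⟫_ℂ ∂μ).re) : f =ᵐ[μ] g := by
  have i1 : Integrable (fun y => ‖f y‖ ^ 2) μ := hf.integrable_norm_pow two_ne_zero
  have i2 : Integrable (fun y => ‖g y‖ ^ 2) μ := hg.integrable_norm_pow two_ne_zero
  have i3 : Integrable (fun y => ⟪f y, g y⟫_ℂ) μ := integrable_inner_memLp hf hg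
  have i4 : Integrable (fun y => ‖f y - g y‖ ^ 2) μ := (hf.sub hg).integrable_norm_pow two_ne_zero
  have e1 : ∀ y, ‖f y - g y‖ ^ 2 = ‖f y‖ ^ 2 - 2 * (⟪f y, g y⟫_ℂ).re + ‖g y‖ ^ 2 := by
    intro y
    exact norm_sub_sq (𝕜 := ℂ) (f y) (g y)
  have i5 : Integrable (fun y => (⟪f y, g y⟫_ℂ).re) μ := i3.re
  have e2 : ∫ y, ‖f y - g y‖ ^ 2 ∂μ = ∫ y, ‖f y‖ ^ 2 ∂μ - 2 * (∫ y, ⟪f y, g y⟫_ℂ ∂μ).re
      + ∫ y, ‖g y‖ ^ 2 ∂μ := by
    simp only [e1]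
    have a1 := integral_add (i1.sub (i5.const_mul 2)) i2
    have a2 := integral_sub i1 (i5.const_mul 2)
    have a3 := integral_const_mul (μ := μ) (2 : ℝ) fun y => (⟪f y, g y⟫_ℂ).re
    rw [a3] at a2
    simp only [Pi.sub_apply] at a1
    rw [a1, a2]
    have : ∫ y, (⟪f y, g y⟫_ℂ).re ∂μ = (∫ y, ⟪f y, g y⟫_ℂ ∂μ).re := by
      exact integral_re i3
    rw [this]
  have e3 : ∫ y, ‖f y - g y‖ ^ 2 ∂μ = 0 := by
    refine le_antisymm (by linarith) (integral_nonneg fun y => by positivity)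
  have e4 := (integral_eq_zero_iff_of_nonneg (fun y => by positivity) i4).1 e3
  filter_upwards [e4] with y hy
  have : ‖f y - g y‖ ^ 2 = 0 := hy
  rw [sq_eq_zero_iff, norm_eq_zero, sub_eq_zero] at this
  exact this

/-- the same for continuous functions -/
theorem eq_of_cs [TopologicalSpace Y] [μ.IsOpenPosMeasure] {f g : Y → K} (cf : Continuous f)
    (cg : Continuous g) (hf : MemLp f 2 μ) (hg : MemLp g 2 μ) {A : ℝ}
    (h1 : ∫ y, ‖f y‖ ^ 2 ∂μ ≤ A) (h2 : ∫ y, ‖g y‖ ^ 2 ∂μ ≤ A)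
    (h3 : A ≤ (∫ y, ⟪f y, g y⟫_ℂ ∂μ).re) : f = g :=
  (Continuous.ae_eq_iff_eq μ cf cg).1 (ae_eq_of_cs hf hg h1 h2 h3)

end cs

end Vale.Agent.P092.H978
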