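import Vale.Agent.P092.H242.ThCDefs
import Vale.Agent.P092.H978.Glue1

/-!
Theorem C (#3269), step (2) and (5) for a general family `Θ b c` of operators on a Hilbert space `M`:
the closed span of the pairs `(φ b c, Θ b c)` is a star algebra; the star representation `E` of
`C₀(H)` with `E (φ b c) = Θ b c`.
-/

open MeasureTheory Filter Topology
open scoped InnerProductSpace ZeroAtInfty

namespace Vale.Agent.P092.H978

open Vale.Agent.P092.H242.ThC

section defs

variable {A L M : Type*} [NonUnitalRing A] [StarRing A] [Module ℂ A]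
  [NormedAddCommGroup L] [InnerProductSpace ℂ L]
  [NormedAddCommGroup M] [InnerProductSpace ℂ M] [CompleteSpace M]

/-- the family `Θ b c = ∫ r_y(b) · r_y(c)* dy` of operators on a Hilbert space `M`, axiomatically. -/
structure ThF {Y : Type*} [MeasurableSpace Y] (j : A →ₗ[ℂ] L) (r : Y → A → A) (ν : Measure Y)
    (Θ : A → A → (M →L[ℂ] M)) : Prop where
  add_left : ∀ a b c, Θ (a + b) c = Θ a c + Θ b c
  smul_left : ∀ (z : ℂ) b c, Θ (z • b) c = z • Θ b c
  add_right : ∀ b c d, Θ b (c + d) = Θ b c + Θ b d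
  smul_right : ∀ (z : ℂ) b c, Θ b (z • c) = star z • Θ b c
  bdd : ∀ b c, ‖Θ b c‖ ≤ ‖j b‖ * ‖j c‖
  adj : ∀ b c, ContinuousLinearMap.adjoint (Θ b c) = Θ (star b) (star c)
  prod : ∀ b c b' c' x z, ⟪z, Θ b c (Θ b' c' x)⟫_ℂ =
    ∫ w, ⟪z, Θ (b * r w b') (c * r w c') x⟫_ℂ ∂ν

end defs

section prod

variable {A L M : Type*} [NonUnitalRing A] [StarRing A] [Module ℂ A]
  [NormedAddCommGroup L] [InnerProductSpace ℂ L] {j : A →ₗ[ℂ] L}
  [NormedAddCommGroup M] [InnerProductSpace ℂ M] [CompleteSpace M]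
variable {H Y : Type*} [Group H] [TopologicalSpace H] [MeasurableSpace H] [Group Y]
    [TopologicalSpace Y] [MeasurableSpace Y]
variable {α : H → A → A} {U : H →* (L →L[ℂ] L)} {μ : Measure H} {r : Y → A → A}
  {R : Y →* (L →L[ℂ] L)} {ν : Measure Y}

theorem star_r (P : Pk j α U μ r R ν) (y : Y) (a : A) : r y (star a) = star (r y a) :=
  P.actY.st y a

/-- the row form of the integrability -/
theorem row_int (P : Pk j α U μ r R ν) (b b' : A) :
    Integrable (fun w => ‖j (b * r w b')‖ ^ 2) ν := by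
  have h := P.itgY.int (star b') (star b)
  refine h.congr (Eventually.of_forall fun w => ?_)
  simp only
  rw [P.ha.norm_star_mul b (r w b'), P.actY.st]

theorem row_eq (P : Pk j α U μ r R ν) (c c' x x' : A) :
    ∫ w, ⟪j (c * r w c'), j (x * r w x')⟫_ℂ ∂ν = ⟪j c, j x⟫_ℂ * ⟪j c', j x'⟫_ℂ := by
  have h := P.itgY.eq (star x') (star c') (star x) (star c)
  rw [P.ha.tr, P.ha.tr] at h
  rw [mul_comm, ← h]
  refine integral_congr_ae (Eventually.of_forall fun w => ?_)
  simp only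
  rw [P.actY.st, P.actY.st, ← star_mul, ← star_mul, P.ha.tr]

theorem row_cont (P : Pk j α U μ r R ν) (b b' : A) : Continuous fun w => j (b * r w b') :=
  P.ha.cont_mulL b (P.actY.contj b')

variable [SecondCountableTopology Y] [OpensMeasurableSpace Y]

omit [SecondCountableTopology Y] in
theorem row_int2 (P : Pk j α U μ r R ν) (b b' c c' : A) :
    Integrable (fun w => ‖j (b * r w b')‖ * ‖j (c * r w c')‖) ν := by
  have h := (row_int P b b').add (row_int P c c')
  refine h.mono ?_ (Eventually.of_forall fun w => ?_)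
  · exact ((row_cont P b b').norm.mul (row_cont P c c').norm).aestronglyMeasurable
  · rw [Real.norm_eq_abs, Real.norm_eq_abs, abs_of_nonneg (by positivity)]
    simp only [Pi.add_apply]
    rw [abs_of_nonneg (by positivity)]
    nlinarith [sq_nonneg (‖j (b * r w b')‖ - ‖j (c * r w c')‖), sq_nonneg ‖j (b * r w b')‖,
      sq_nonneg ‖j (c * r w c')‖]

variable {Θ : A → A → (M →L[ℂ] M)}

omit [StarRing A] [TopologicalSpace Y] [Group Y] [SecondCountableTopology Y] [OpensMeasurableSpace Y] in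
theorem ThF.sub_left [StarRing A] (h : ThF j r ν Θ) (a b c : A) : Θ (a - b) c = Θ a c - Θ b c := by
  have := h.add_left (a - b) b c
  rw [sub_add_cancel] at this
  rw [this, add_sub_cancel_right]

omit [StarRing A] [TopologicalSpace Y] [Group Y] [SecondCountableTopology Y] [OpensMeasurableSpace Y] in
theorem ThF.sub_right [StarRing A] (h : ThF j r ν Θ) (a b c : A) : Θ a (b - c) = Θ a b - Θ a c := by
  have := h.add_right a (b - c) c
  rw [sub_add_cancel] at this
  rw [this, add_sub_cancel_right]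

omit [Group Y] [TopologicalSpace Y] [SecondCountableTopology Y] [OpensMeasurableSpace Y] in
/-- continuity of `Θ` along continuous families -/
theorem ThF.cont (h : ThF j r ν Θ) {X : Type*} [TopologicalSpace X] {f g : X → A}
    (hf : Continuous fun x => j (f x)) (hg : Continuous fun x => j (g x)) :
    Continuous fun x => Θ (f x) (g x) := by
  rw [continuous_iff_continuousAt]
  intro x₀
  rw [ContinuousAt, tendsto_iff_norm_sub_tendsto_zero]
  have hb : ∀ x, ‖Θ (f x) (g x) - Θ (f x₀) (g x₀)‖ ≤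
      ‖j (f x) - j (f x₀)‖ * ‖j (g x)‖ + ‖j (f x₀)‖ * ‖j (g x) - j (g x₀)‖ := by
    intro x
    have e : Θ (f x) (g x) - Θ (f x₀) (g x₀) =
        Θ (f x - f x₀) (g x) + Θ (f x₀) (g x - g x₀) := by
      rw [h.sub_left, h.sub_right]; abel
    rw [e]
    refine (norm_add_le _ _).trans (add_le_add ?_ ?_)
    · rw [← map_sub]; exact h.bdd _ _
    · rw [← map_sub]; exact h.bdd _ _
  refine squeeze_zero (fun _ => norm_nonneg _) hb ?_
  have hcont : Continuous fun x => ‖j (f x) - j (f x₀)‖ * ‖j (g x)‖ +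
      ‖j (f x₀)‖ * ‖j (g x) - j (g x₀)‖ :=
    ((hf.sub continuous_const).norm.mul hg.norm).add
      (continuous_const.mul (hg.sub continuous_const).norm)
  have := hcont.tendsto x₀
  simpa using this

omit [SecondCountableTopology Y] [OpensMeasurableSpace Y] in
/-- the coefficient function `φ b c (t) = ⟪j c, U t (j b)⟫` in `C₀(H)` -/
noncomputable def ph (P : Pk j α U μ r R ν)
    (h0 : ∀ b c : L, Tendsto (fun t => ⟪c, U t b⟫_ℂ) (cocompact H) (𝓝 0)) (b c : A) : C₀(H, ℂ) :=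
  coef (fun t => U t) P.actH.cont h0 (j b) (j c)

omit [SecondCountableTopology Y] [OpensMeasurableSpace Y] in
theorem ph_apply (P : Pk j α U μ r R ν)
    (h0 : ∀ b c : L, Tendsto (fun t => ⟪c, U t b⟫_ℂ) (cocompact H) (𝓝 0)) (b c : A) (t : H) :
    ph P h0 b c t = ⟪j c, j (α t b)⟫_ℂ := by
  change ⟪j c, U t (j b)⟫_ℂ = _
  rw [P.actH.coe]

/-- the set of pairs -/
def prs (P : Pk j α U μ r R ν)
    (h0 : ∀ b c : L, Tendsto (fun t => ⟪c, U t b⟫_ℂ) (cocompact H) (𝓝 0))
    (Θ : A → A → (M →L[ℂ] M)) : Set (C₀(H, ℂ) × (M →L[ℂ] M)) :=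
  {x | ∃ b c, x = (ph P h0 b c, Θ b c)}

/-- evaluation as a continuous linear map -/
noncomputable def evL {X : Type*} [TopologicalSpace X] (x : X) : C₀(X, ℂ) →L[ℂ] ℂ :=
  LinearMap.mkContinuous
    { toFun := fun f => f x, map_add' := fun _ _ => rfl, map_smul' := fun _ _ => rfl } 1
    (fun f => by
      rw [one_mul]
      have := BoundedContinuousFunction.norm_coe_le_norm f.toBCF x
      rw [ZeroAtInftyContinuousMap.norm_toBCF_eq_norm] at this
      exact this)

@[simp] theorem evL_apply {X : Type*} [TopologicalSpace X] (x : X) (f : C₀(X, ℂ)) :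
    evL x f = f x := rfl

/-- **[PROD]** -/
theorem prod_mem (P : Pk j α U μ r R ν)
    (h0 : ∀ b c : L, Tendsto (fun t => ⟪c, U t b⟫_ℂ) (cocompact H) (𝓝 0)) (hΘ : ThF j r ν Θ)
    (b c b' c' : A) : (ph P h0 b c * ph P h0 b' c', Θ b c * Θ b' c') ∈
      (Submodule.span ℂ (prs P h0 Θ)).topologicalClosure := by
  have hU : ∀ t v, ‖U t v‖ ≤ ‖v‖ := fun t v => (P.actH.iso t v).le
  set F : Y → C₀(H, ℂ) := fun w => ph P h0 (b * r w b') (c * r w c') with hF
  set T : Y → (M →L[ℂ] M) := fun w => Θ (b * r w b') (c * r w c') with hT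
  have cF : Continuous F := by
    have h1 := continuous_coef (fun t => U t) hU P.actH.cont h0
    exact h1.comp ((row_cont P b b').prodMk (row_cont P c c'))
  have cT : Continuous T := hΘ.cont (row_cont P b b') (row_cont P c c')
  have iF : Integrable F ν := by
    refine (row_int2 P b b' c c').mono cF.aestronglyMeasurable (Eventually.of_forall fun w => ?_)
    rw [Real.norm_of_nonneg (by positivity)]
    exact norm_coef_le (fun t => U t) hU P.actH.cont h0 _ _
  have iT : Integrable T ν := by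
    refine (row_int2 P b b' c c').mono cT.aestronglyMeasurable (Eventually.of_forall fun w => ?_)
    rw [Real.norm_of_nonneg (by positivity)]
    exact hΘ.bdd _ _
  have eF : ∫ w, F w ∂ν = ph P h0 b c * ph P h0 b' c' := by
    ext t
    rw [← evL_apply t (∫ w, F w ∂ν), ← ContinuousLinearMap.integral_comp_comm _ iF]
    rw [ZeroAtInftyContinuousMap.mul_apply, ph_apply, ph_apply, ← row_eq P c c' (α t b) (α t b')]
    refine integral_congr_ae (Eventually.of_forall fun w => ?_)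
    simp only [evL_apply, hF]
    rw [ph_apply, P.actH.mul, P.comm]
  have eT : ∫ w, T w ∂ν = Θ b c * Θ b' c' := by
    refine ContinuousLinearMap.ext fun x => ?_
    refine ext_inner_left ℂ fun z => ?_
    have h1 : ⟪z, (∫ w, T w ∂ν) x⟫_ℂ = ∫ w, ⟪z, T w x⟫_ℂ ∂ν := by
      have h2 := ContinuousLinearMap.integral_comp_comm
        ((innerSL ℂ z).comp (ContinuousLinearMap.apply ℂ M x)) iT
      simpa using h2.symm
    rw [h1, mul_apply_eq_comp, hΘ.prod]
  rw [← eF, ← eT]
  refine integral_pair_mem _ (Submodule.isClosed_topologicalClosure _) iF iT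
    (Eventually.of_forall fun w => ?_)
  exact Submodule.le_topologicalClosure _ (Submodule.subset_span ⟨_, _, rfl⟩)

omit [SecondCountableTopology Y] [OpensMeasurableSpace Y] in
/-- representation of the elements of the span by lists -/
theorem mem_span_prs (P : Pk j α U μ r R ν)
    (h0 : ∀ b c : L, Tendsto (fun t => ⟪c, U t b⟫_ℂ) (cocompact H) (𝓝 0)) (hΘ : ThF j r ν Θ)
    {x : C₀(H, ℂ) × (M →L[ℂ] M)} (hx : x ∈ Submodule.span ℂ (prs P h0 Θ)) :
    ∃ (n : ℕ) (b c : Fin n → A), x = (∑ k, ph P h0 (b k) (c k), ∑ k, Θ (b k) (c k)) := by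
  have key : ∃ l : List (A × A), x = (l.map fun p => (ph P h0 p.1 p.2, Θ p.1 p.2)).sum := by
    induction hx using Submodule.span_induction with
    | mem x hx =>
      obtain ⟨b, c, rfl⟩ := hx
      exact ⟨[(b, c)], by simp⟩
    | zero => exact ⟨[], by simp⟩
    | add x y _ _ h1 h2 =>
      obtain ⟨l, rfl⟩ := h1
      obtain ⟨m, rfl⟩ := h2
      exact ⟨l ++ m, by simp⟩
    | smul z x _ h1 =>
      obtain ⟨l, rfl⟩ := h1
      refine ⟨l.map fun p => (z • p.1, p.2), ?_⟩
      rw [List.smul_sum, List.map_map, List.map_map]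
      congr 1
      refine List.map_congr_left fun p _ => ?_
      simp only [Function.comp]
      refine Prod.ext ?_ ?_
      · ext t
        change z * ph P h0 p.1 p.2 t = ph P h0 (z • p.1) p.2 t
        change z * ⟪j p.2, U t (j p.1)⟫_ℂ = ⟪j p.2, U t (j (z • p.1))⟫_ℂ
        rw [map_smul, map_smul, inner_smul_right]
      · exact (hΘ.smul_left z p.1 p.2).symm
  obtain ⟨l, rfl⟩ := key
  refine ⟨l.length, fun k => (l[k.1]).1, fun k => (l[k.1]).2, ?_⟩
  rw [← Fin.sum_univ_fun_getElem l fun p => (ph P h0 p.1 p.2, Θ p.1 p.2)]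
  exact Prod.ext Prod.fst_sum Prod.snd_sum

omit [SecondCountableTopology Y] [OpensMeasurableSpace Y] in
theorem star_ph (P : Pk j α U μ r R ν)
    (h0 : ∀ b c : L, Tendsto (fun t => ⟪c, U t b⟫_ℂ) (cocompact H) (𝓝 0)) (b c : A) :
    star (ph P h0 b c) = ph P h0 (star b) (star c) := by
  ext t
  rw [ZeroAtInftyContinuousMap.star_apply, ph_apply, ph_apply]
  change (starRingEnd ℂ) _ = _
  rw [inner_conj_symm, P.actH.st, P.ha.tr]

/-- **the star representation `E` of `C₀(H)` with `E (φ b c) = Θ b c`** -/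
theorem exists_E (P : Pk j α U μ r R ν)
    (h0 : ∀ b c : L, Tendsto (fun t => ⟪c, U t b⟫_ℂ) (cocompact H) (𝓝 0)) (hΘ : ThF j r ν Θ)
    (hd : Dense (Submodule.span ℂ (Set.range fun p : A × A => ph P h0 p.1 p.2) : Set C₀(H, ℂ)))
    {D : Set M} (hD : Dense D)
    (hsup : ∀ x ∈ D, ∀ (n : ℕ) (b c : Fin n → A) (K : ℝ),
      (∀ t, ‖∑ k, ⟪j (c k), j (α t (b k))⟫_ℂ‖ ≤ K) → ‖∑ k, ⟪x, Θ (b k) (c k) x⟫_ℂ‖ ≤ ‖x‖ ^ 2 * K) :
    ∃ E : C₀(H, ℂ) →⋆ₙₐ[ℂ] (M →L[ℂ] M), ∀ b c, E (ph P h0 b c) = Θ b c := by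
  have hC : ∀ x ∈ Submodule.span ℂ (prs P h0 Θ), ‖x.2‖ ≤ 2 * ‖x.1‖ := by
    intro x hx
    obtain ⟨n, b, c, rfl⟩ := mem_span_prs P h0 hΘ hx
    refine norm_le_of_numRadius _ (norm_nonneg _) hD fun x hxD => ?_
    have h1 := hsup x hxD n b c ‖∑ k, ph P h0 (b k) (c k)‖ fun t => by
      have e1 : ∑ k, ⟪j (c k), j (α t (b k))⟫_ℂ = evL t (∑ k, ph P h0 (b k) (c k)) := by
        rw [map_sum]
        exact Finset.sum_congr rfl fun k _ => (ph_apply P h0 _ _ _).symm
      rw [e1]
      have := BoundedContinuousFunction.norm_coe_le_norm (∑ k, ph P h0 (b k) (c k)).toBCF t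
      rw [ZeroAtInftyContinuousMap.norm_toBCF_eq_norm] at this
      exact this
    have e2 : ⟪x, (∑ k, Θ (b k) (c k)) x⟫_ℂ = ∑ k, ⟪x, Θ (b k) (c k) x⟫_ℂ := by
      rw [sum_apply, inner_sum]
    rw [e2]
    linarith
  have hmul : ∀ x ∈ prs P h0 Θ, ∀ y ∈ prs P h0 Θ,
      x * y ∈ (Submodule.span ℂ (prs P h0 Θ)).topologicalClosure := by
    rintro x ⟨b, c, rfl⟩ y ⟨b', c', rfl⟩
    exact prod_mem P h0 hΘ b c b' c'
  have hstar : ∀ x ∈ prs P h0 Θ, star x ∈ (Submodule.span ℂ (prs P h0 Θ)).topologicalClosure := by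
    rintro x ⟨b, c, rfl⟩
    refine Submodule.le_topologicalClosure _ (Submodule.subset_span ⟨star b, star c, ?_⟩)
    refine Prod.ext ?_ ?_
    · exact star_ph P h0 b c
    · exact hΘ.adj b c
  have hdd : Dense ((fun x : C₀(H, ℂ) × (M →L[ℂ] M) => x.1) ''
      (Submodule.span ℂ (prs P h0 Θ) : Set (C₀(H, ℂ) × (M →L[ℂ] M)))) := by
    refine hd.mono ?_
    intro f hf
    induction hf using Submodule.span_induction with
    | mem f hf =>
      obtain ⟨⟨b, c⟩, rfl⟩ := hf
      exact ⟨(ph P h0 b c, Θ b c), Submodule.subset_span ⟨b, c, rfl⟩, rfl⟩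
    | zero => exact ⟨0, Submodule.zero_mem _, rfl⟩
    | add f g _ _ h1 h2 =>
      obtain ⟨x, hx, rfl⟩ := h1
      obtain ⟨y, hy, rfl⟩ := h2
      exact ⟨x + y, Submodule.add_mem _ hx hy, rfl⟩
    | smul z f _ h1 =>
      obtain ⟨x, hx, rfl⟩ := h1
      exact ⟨z • x, Submodule.smul_mem _ z hx, rfl⟩
  obtain ⟨E, hE, -⟩ := exists_starHom (prs P h0 Θ) 2 hC hmul hstar hdd
  exact ⟨E, fun b c => hE _ ⟨b, c, rfl⟩⟩

end prod

end Vale.Agent.P092.H978
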