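import Vale.Agent.P092.H899.Simple

/-!
Conjugation invariant, elementwise commuting subsets of `SL_n(k) ⧸ center` are trivial (`k` an
infinite field, `n ≥ 2`): the group hypothesis of Theorem C (#3269), single and pair version.
-/

namespace Vale.Agent.P092.H978

open Matrix

section abs

variable {H : Type*} [Group H]

/-- the subgroup generated by a conjugation invariant set is normal -/
theorem closure_normal {S : Set H} (hS : ∀ s, ∀ t ∈ S, s * t * s⁻¹ ∈ S) :
    (Subgroup.closure S).Normal := by
  refine ⟨fun x hx g => ?_⟩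
  induction hx using Subgroup.closure_induction with
  | mem x hx => exact Subgroup.subset_closure (hS g x hx)
  | one => rw [mul_one, mul_inv_cancel]; exact Subgroup.one_mem _
  | mul x y _ _ h1 h2 =>
    have e : g * (x * y) * g⁻¹ = (g * x * g⁻¹) * (g * y * g⁻¹) := by group
    rw [e]
    exact Subgroup.mul_mem _ h1 h2
  | inv x _ h1 =>
    have e : g * x⁻¹ * g⁻¹ = (g * x * g⁻¹)⁻¹ := by group
    rw [e]
    exact Subgroup.inv_mem _ h1

/-- in a group whose only normal subgroups are `⊥` and `⊤`, elementwise commuting conjugation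
invariant sets: one of them is trivial, unless the group is commutative. -/
theorem grp_pair_of_simple (hs : ∀ N : Subgroup H, N.Normal → N = ⊥ ∨ N = ⊤)
    (hc : (∀ x y : H, x * y = y * x) → ∀ x : H, x = 1) {S T : Set H}
    (hS : ∀ s, ∀ t ∈ S, s * t * s⁻¹ ∈ S) (hT : ∀ s, ∀ t ∈ T, s * t * s⁻¹ ∈ T)
    (hcomm : ∀ s ∈ S, ∀ t ∈ T, s * t = t * s) : S ⊆ {1} ∨ T ⊆ {1} := by
  rcases hs _ (closure_normal hS) with h1 | h1
  · left
    intro x hx
    have : x ∈ Subgroup.closure S := Subgroup.subset_closure hx
    rw [h1, Subgroup.mem_bot] at this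
    exact this
  rcases hs _ (closure_normal hT) with h2 | h2
  · right
    intro x hx
    have : x ∈ Subgroup.closure T := Subgroup.subset_closure hx
    rw [h2, Subgroup.mem_bot] at this
    exact this
  have h3 : ∀ x : H, ∀ t ∈ T, x * t = t * x := by
    intro x t ht
    have hx : x ∈ Subgroup.closure S := by rw [h1]; exact Subgroup.mem_top _
    induction hx using Subgroup.closure_induction with
    | mem x hx => exact hcomm x hx t ht
    | one => rw [one_mul, mul_one]
    | mul x y _ _ e1 e2 => rw [mul_assoc, e2, ← mul_assoc, e1, mul_assoc]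
    | inv x _ e1 => rw [inv_mul_eq_iff_eq_mul, ← mul_assoc, e1, mul_assoc, mul_inv_cancel, mul_one]
  have h4 : ∀ x y : H, x * y = y * x := by
    intro x y
    have hy : y ∈ Subgroup.closure T := by rw [h2]; exact Subgroup.mem_top _
    induction hy using Subgroup.closure_induction with
    | mem y hy => exact h3 x y hy
    | one => rw [one_mul, mul_one]
    | mul y z _ _ e1 e2 => rw [← mul_assoc, e1, mul_assoc, e2, mul_assoc]
    | inv y _ e1 => rw [eq_inv_mul_iff_mul_eq, ← mul_assoc, ← e1, mul_assoc, mul_inv_cancel, mul_one]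
  left
  intro x _
  exact hc h4 x

end abs

variable {n : Type*} [Fintype n] [DecidableEq n] {k : Type*} [Field k]

/-- the normal subgroups of `SL_n(k) ⧸ center` -/
theorem psl_normal [Nontrivial n] [Infinite k]
    (N : Subgroup (SpecialLinearGroup n k ⧸ Subgroup.center (SpecialLinearGroup n k)))
    (hN : N.Normal) : N = ⊥ ∨ N = ⊤ := by
  set π := QuotientGroup.mk' (Subgroup.center (SpecialLinearGroup n k)) with hπ
  have hsurj : Function.Surjective π := QuotientGroup.mk'_surjective _
  have h1 : (N.comap π).Normal := hN.comap π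
  rcases H899.normal_le_center_or_top (N.comap π) with h | h
  · left
    rw [eq_bot_iff]
    intro x hx
    obtain ⟨g, rfl⟩ := hsurj x
    rw [Subgroup.mem_bot]
    exact (QuotientGroup.eq_one_iff g).2 (h hx)
  · right
    rw [eq_top_iff]
    intro x _
    obtain ⟨g, rfl⟩ := hsurj x
    have : g ∈ N.comap π := by rw [h]; exact Subgroup.mem_top _
    exact this

theorem psl_comm [Nontrivial n] [Infinite k]
    (h : ∀ x y : SpecialLinearGroup n k ⧸ Subgroup.center (SpecialLinearGroup n k), x * y = y * x)
    (x : SpecialLinearGroup n k ⧸ Subgroup.center (SpecialLinearGroup n k)) : x = 1 := by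
  let _ : CommGroup (SpecialLinearGroup n k ⧸ Subgroup.center (SpecialLinearGroup n k)) :=
    { (inferInstance : Group (SpecialLinearGroup n k ⧸
        Subgroup.center (SpecialLinearGroup n k))) with mul_comm := h }
  obtain ⟨g, rfl⟩ := QuotientGroup.mk'_surjective _ x
  have := H899.hom_eq_one (QuotientGroup.mk' (Subgroup.center (SpecialLinearGroup n k)))
  rw [this]
  rfl

/-- **[GRP]**, pair version -/
theorem psl_pair [Nontrivial n] [Infinite k]
    {S T : Set (SpecialLinearGroup n k ⧸ Subgroup.center (SpecialLinearGroup n k))}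
    (hS : ∀ s, ∀ t ∈ S, s * t * s⁻¹ ∈ S) (hT : ∀ s, ∀ t ∈ T, s * t * s⁻¹ ∈ T)
    (hcomm : ∀ s ∈ S, ∀ t ∈ T, s * t = t * s) : S ⊆ {1} ∨ T ⊆ {1} :=
  grp_pair_of_simple psl_normal psl_comm hS hT hcomm

/-- **[GRP]**, single version -/
theorem psl_single [Nontrivial n] [Infinite k]
    {S : Set (SpecialLinearGroup n k ⧸ Subgroup.center (SpecialLinearGroup n k))}
    (hS : ∀ s, ∀ t ∈ S, s * t * s⁻¹ ∈ S)
    (hcomm : ∀ s ∈ S, ∀ t ∈ S, s * t = t * s) : S ⊆ {1} := by
  rcases psl_pair hS hS hcomm with h | h <;> exact h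

end Vale.Agent.P092.H978
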