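import Vale.Agent.P092.H978.Prod

/-!
Theorem C (#3269), assembly: from the sup bound, the density of the coefficients and the exchange
formula to the commutativity of the tracial Hilbert algebra (single version), and to
`Θ b c = ⟪j c, j b⟫ • 1` (pair version).
-/

set_option linter.all false

open MeasureTheory Filter Topology
open scoped InnerProductSpace ZeroAtInfty

namespace Vale.Agent.P092.H978

open Vale.Agent.P092.H242.ThC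

section pair

variable {A₁ L₁ A₂ L₂ : Type*} [NonUnitalRing A₁] [StarRing A₁] [Module ℂ A₁]
  [NormedAddCommGroup L₁] [InnerProductSpace ℂ L₁] [CompleteSpace L₁] {j₁ : A₁ →ₗ[ℂ] L₁}
  [NonUnitalRing A₂] [StarRing A₂] [Module ℂ A₂]
  [NormedAddCommGroup L₂] [InnerProductSpace ℂ L₂] [CompleteSpace L₂] {j₂ : A₂ →ₗ[ℂ] L₂}
variable {H Y₁ Y₂ : Type*} [Group H] [TopologicalSpace H] [IsTopologicalGroup H] [T2Space H]
  [LocallyCompactSpace H] [MeasurableSpace H] [Group Y₁]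
    [TopologicalSpace Y₁] [MeasurableSpace Y₁] [Group Y₂] [TopologicalSpace Y₂]
    [MeasurableSpace Y₂]
variable {α₁ : H → A₁ → A₁} {U₁ : H →* (L₁ →L[ℂ] L₁)} {μ μ' : Measure H} {r₁ : Y₁ → A₁ → A₁}
  {R₁ : Y₁ →* (L₁ →L[ℂ] L₁)} {ν₁ : Measure Y₁}
  {α₂ : H → A₂ → A₂} {U₂ : H →* (L₂ →L[ℂ] L₂)} {r₂ : Y₂ → A₂ → A₂}
  {R₂ : Y₂ →* (L₂ →L[ℂ] L₂)} {ν₂ : Measure Y₂}

/-- the set of coefficient functions of `U₁` -/
def cfs (j₁ : A₁ →ₗ[ℂ] L₁) (α₁ : H → A₁ → A₁) : Set C₀(H, ℂ) :=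
  {f | ∃ b c : A₁, ∀ t, f t = ⟪j₁ c, j₁ (α₁ t b)⟫_ℂ}

/-- **the exchange formula for the two representations** -/
theorem exch_pair (P₁ : Pk j₁ α₁ U₁ μ r₁ R₁ ν₁) (P₂ : Pk j₂ α₂ U₂ μ' r₂ R₂ ν₂)
    (h1 : ∀ b c : L₁, Tendsto (fun t => ⟪c, U₁ t b⟫_ℂ) (cocompact H) (𝓝 0))
    (h2 : ∀ b c : L₂, Tendsto (fun t => ⟪c, U₂ t b⟫_ℂ) (cocompact H) (𝓝 0))
    {Θ₁ : A₁ → A₁ → (L₂ →L[ℂ] L₂)} {Θ₂ : A₂ → A₂ → (L₁ →L[ℂ] L₁)}
    (E₁ : C₀(H, ℂ) →⋆ₙₐ[ℂ] (L₁ →L[ℂ] L₁)) (E₂ : C₀(H, ℂ) →⋆ₙₐ[ℂ] (L₂ →L[ℂ] L₂))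
    (hE₁ : ∀ b c, E₁ (ph P₂ h2 b c) = Θ₂ b c) (hE₂ : ∀ b c, E₂ (ph P₁ h1 b c) = Θ₁ b c)
    (hS : ∀ (b c : A₁) (x z : A₂), ⟪j₂ z, Θ₁ b c (j₂ x)⟫_ℂ =
      ⟪j₁ c, Θ₂ (star z) (star x) (j₁ b)⟫_ℂ) : Exch U₁ U₂ E₁ E₂ := by
  refine exch_of_dense U₁ U₂ (fun t v => (P₁.actH.iso t v).le) (fun t v => (P₂.actH.iso t v).le)
    P₁.actH.cont P₂.actH.cont (D₁ := Set.range j₁) P₁.ha.dense (D₂ := Set.range j₂) P₂.ha.dense
    (fun b _ c _ => h1 b c) (fun b _ c _ => h2 b c) E₁ E₂ ?_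
  rintro _ ⟨b, rfl⟩ _ ⟨c, rfl⟩ _ ⟨x, rfl⟩ _ ⟨z, rfl⟩ φ ψ hφ hψ
  have e1 : φ = ph P₁ h1 b c := by
    ext t
    rw [hφ, ph_apply, P₁.actH.coe]
  have e2 : ψ = ph P₂ h2 (star z) (star x) := by
    ext t
    rw [hψ, ph_apply, P₂.actH.st, P₂.ha.tr, ← P₂.actH.coe, ← P₂.actH.inner_inv, inv_inv,
      P₂.actH.coe]
  rw [e1, e2, hE₁, hE₂, hS]

/-- covariance of `E` -/
theorem cov_E {M : Type*} [NormedAddCommGroup M] [InnerProductSpace ℂ M] [CompleteSpace M]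
    (P₁ : Pk j₁ α₁ U₁ μ r₁ R₁ ν₁)
    (h1 : ∀ b c : L₁, Tendsto (fun t => ⟪c, U₁ t b⟫_ℂ) (cocompact H) (𝓝 0))
    (hd : Dense (Submodule.span ℂ (Set.range fun p : A₁ × A₁ => ph P₁ h1 p.1 p.2) :
      Set C₀(H, ℂ)))
    {Θ : A₁ → A₁ → (M →L[ℂ] M)} {W : H →* (M →L[ℂ] M)}
    (E : C₀(H, ℂ) →⋆ₙₐ[ℂ] (M →L[ℂ] M)) (hE : ∀ b c, E (ph P₁ h1 b c) = Θ b c)
    (hcov : ∀ h b c, W h * Θ b c * W h⁻¹ = Θ (α₁ h b) (α₁ h c)) : Cov W E := by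
  refine cov_of_dense W E _ hd ?_
  rintro s _ ⟨⟨b, c⟩, rfl⟩
  have e : cjF s (ph P₁ h1 b c) = ph P₁ h1 (α₁ s b) (α₁ s c) := by
    ext t
    rw [cjF_apply, ph_apply, ph_apply, P₁.actH.act, ← P₁.actH.innerj s, P₁.actH.act]
    congr 3
    group
  simp only
  rw [e, hE, hE, hcov]

/-- **Theorem C, pair version, abstract form** -/
theorem pair_theta [SecondCountableTopology Y₁] [OpensMeasurableSpace Y₁]
    [SecondCountableTopology Y₂] [OpensMeasurableSpace Y₂]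
    (P₁ : Pk j₁ α₁ U₁ μ r₁ R₁ ν₁) (P₂ : Pk j₂ α₂ U₂ μ' r₂ R₂ ν₂)
    (h1 : ∀ b c : L₁, Tendsto (fun t => ⟪c, U₁ t b⟫_ℂ) (cocompact H) (𝓝 0))
    (h2 : ∀ b c : L₂, Tendsto (fun t => ⟪c, U₂ t b⟫_ℂ) (cocompact H) (𝓝 0))
    (hd1 : Dense (Submodule.span ℂ (Set.range fun p : A₁ × A₁ => ph P₁ h1 p.1 p.2) :
      Set C₀(H, ℂ)))
    (hd2 : Dense (Submodule.span ℂ (Set.range fun p : A₂ × A₂ => ph P₂ h2 p.1 p.2) :
      Set C₀(H, ℂ)))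
    {Θ₁ : A₁ → A₁ → (L₂ →L[ℂ] L₂)} {Θ₂ : A₂ → A₂ → (L₁ →L[ℂ] L₁)}
    (hΘ₁ : ThF j₁ r₁ ν₁ Θ₁) (hΘ₂ : ThF j₂ r₂ ν₂ Θ₂)
    {D₁ : Set L₁} (hD₁ : Dense D₁) {D₂ : Set L₂} (hD₂ : Dense D₂)
    (hs₁ : ∀ x ∈ D₂, ∀ (n : ℕ) (b c : Fin n → A₁) (K : ℝ),
      (∀ t, ‖∑ k, ⟪j₁ (c k), j₁ (α₁ t (b k))⟫_ℂ‖ ≤ K) →
      ‖∑ k, ⟪x, Θ₁ (b k) (c k) x⟫_ℂ‖ ≤ ‖x‖ ^ 2 * K)
    (hs₂ : ∀ x ∈ D₁, ∀ (n : ℕ) (b c : Fin n → A₂) (K : ℝ),
      (∀ t, ‖∑ k, ⟪j₂ (c k), j₂ (α₂ t (b k))⟫_ℂ‖ ≤ K) →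
      ‖∑ k, ⟪x, Θ₂ (b k) (c k) x⟫_ℂ‖ ≤ ‖x‖ ^ 2 * K)
    (hS : ∀ (b c : A₁) (x z : A₂), ⟪j₂ z, Θ₁ b c (j₂ x)⟫_ℂ =
      ⟪j₁ c, Θ₂ (star z) (star x) (j₁ b)⟫_ℂ)
    (hc₁ : ∀ h b c, U₂ h * Θ₁ b c * U₂ h⁻¹ = Θ₁ (α₁ h b) (α₁ h c))
    (hc₂ : ∀ h b c, U₁ h * Θ₂ b c * U₁ h⁻¹ = Θ₂ (α₂ h b) (α₂ h c))
    (hgrp : ∀ S T : Set H, IsClosed S → IsClosed T → (∀ s, ∀ t ∈ S, s * t * s⁻¹ ∈ S) →
      (∀ s, ∀ t ∈ T, s * t * s⁻¹ ∈ T) → (∀ s ∈ S, ∀ t ∈ T, s * t = t * s) → S ⊆ {1} ∨ T ⊆ {1})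
    (hne : ∃ b c, Θ₁ b c ≠ 0) (b c : A₁) : Θ₁ b c = ⟪j₁ c, j₁ b⟫_ℂ • (1 : L₂ →L[ℂ] L₂) := by
  obtain ⟨E₂, hE₂⟩ := exists_E P₁ h1 hΘ₁ hd1 hD₂ hs₁
  obtain ⟨E₁, hE₁⟩ := exists_E P₂ h2 hΘ₂ hd2 hD₁ hs₂
  have hex := exch_pair P₁ P₂ h1 h2 E₁ E₂ hE₁ hE₂ hS
  have cv2 := cov_E P₁ h1 hd1 E₂ hE₂ hc₁
  have cv1 := cov_E P₂ h2 hd2 E₁ hE₁ hc₂
  have hφ : ∀ b c t, ph P₁ h1 b c t = ⟪j₁ c, U₁ t (j₁ b)⟫_ℂ := fun _ _ _ => rfl
  have hne' : ∃ (φ : C₀(H, ℂ)) (b c : L₁) (x z : L₂), (∀ t, φ t = ⟪c, U₁ t b⟫_ℂ) ∧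
      ⟪z, E₂ φ x⟫_ℂ ≠ 0 := by
    obtain ⟨b, c, hbc⟩ := hne
    by_contra hcon
    push Not at hcon
    apply hbc
    refine ContinuousLinearMap.ext fun x => ?_
    refine ext_inner_left ℂ fun z => ?_
    have := hcon (ph P₁ h1 b c) (j₁ b) (j₁ c) x z (hφ b c)
    rw [hE₂] at this
    rw [this]
    simp
  have := hex.pair cv1 cv2 hgrp hne' (hφ b c)
  rw [← hE₂ b c, this]

end pair

section single

variable {A L : Type*} [NonUnitalRing A] [StarRing A] [Module ℂ A]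
  [NormedAddCommGroup L] [InnerProductSpace ℂ L] [CompleteSpace L] {j : A →ₗ[ℂ] L}
variable {H Y : Type*} [Group H] [TopologicalSpace H] [IsTopologicalGroup H] [T2Space H]
  [LocallyCompactSpace H] [MeasurableSpace H] [Group Y]
    [TopologicalSpace Y] [MeasurableSpace Y]
variable {α : H → A → A} {U : H →* (L →L[ℂ] L)} {μ : Measure H} {r : Y → A → A}
  {R : Y →* (L →L[ℂ] L)} {ν : Measure Y}

/-- the concrete `Θ b c = ∫ r_y(b) · r_y(c)* dy` on `L` -/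
structure ThL (j : A →ₗ[ℂ] L) (α : H → A → A) (U : H →* (L →L[ℂ] L)) (r : Y → A → A)
    (ν : Measure Y) (Θ : A → A → (L →L[ℂ] L)) : Prop extends ThF j r ν Θ where
  form : ∀ b c x z, ⟪j z, Θ b c (j x)⟫_ℂ = ∫ y, ⟪j (z * r y c), j (r y b * x)⟫_ℂ ∂ν
  cov : ∀ h b c, U h * Θ b c * U h⁻¹ = Θ (α h b) (α h c)
  exch : ∀ b c x z, ⟪j z, Θ b c (j x)⟫_ℂ = ⟪j c, Θ (star z) (star x) (j b)⟫_ℂ

theorem col_cont (P : Pk j α U μ r R ν) (b x : A) : Continuous fun w => j (r w b * x) :=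
  P.ha.cont_mulR x (P.actY.contj b)

theorem memLp_of_cont_int {f : Y → L} [OpensMeasurableSpace Y] [SecondCountableTopology Y]
    (hf : Continuous f) (hi : Integrable (fun y => ‖f y‖ ^ 2) ν) : MemLp f 2 ν :=
  (memLp_two_iff_integrable_sq_norm hf.aestronglyMeasurable).2 hi

theorem integral_sq_col (P : Pk j α U μ r R ν) (b x : A) :
    ∫ y, ‖j (r y b * x)‖ ^ 2 ∂ν = ‖j b‖ ^ 2 * ‖j x‖ ^ 2 := by
  have h := P.itgY.eq b b x x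
  have e : ∀ y, ⟪j (r y b * x), j (r y b * x)⟫_ℂ = ((‖j (r y b * x)‖ ^ 2 : ℝ) : ℂ) := by
    intro y
    rw [inner_self_eq_norm_sq_to_K]
    norm_cast
  simp only [e] at h
  rw [integral_complex_ofReal, inner_self_eq_norm_sq_to_K, inner_self_eq_norm_sq_to_K] at h
  refine Complex.ofReal_injective ?_
  rw [h]
  push_cast
  rfl


theorem integral_sq_row (P : Pk j α U μ r R ν) (b x : A) :
    ∫ y, ‖j (x * r y b)‖ ^ 2 ∂ν = ‖j b‖ ^ 2 * ‖j x‖ ^ 2 := by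
  have h := row_eq P x b x b
  have e : ∀ y, ⟪j (x * r y b), j (x * r y b)⟫_ℂ = ((‖j (x * r y b)‖ ^ 2 : ℝ) : ℂ) := by
    intro y
    rw [inner_self_eq_norm_sq_to_K]
    norm_cast
  simp only [e] at h
  rw [integral_complex_ofReal, inner_self_eq_norm_sq_to_K, inner_self_eq_norm_sq_to_K] at h
  refine Complex.ofReal_injective ?_
  rw [h, mul_comm]
  push_cast
  rfl

/-- if `Θ b b = ‖j b‖² • 1` then `b` commutes with everything -/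
theorem comm_of_theta [SecondCountableTopology Y] [OpensMeasurableSpace Y] [ν.IsOpenPosMeasure]
    (P : Pk j α U μ r R ν) {Θ : A → A → (L →L[ℂ] L)} (hΘ : ThL j α U r ν Θ)
    (h : ∀ b c, Θ b c = ⟪j c, j b⟫_ℂ • (1 : L →L[ℂ] L)) (x b : A) : j (x * b) = j (b * x) := by
  have h3 : ‖j b‖ ^ 2 * ‖j x‖ ^ 2 ≤ (∫ y, ⟪j (x * r y b), j (r y b * x)⟫_ℂ ∂ν).re := by
    rw [← hΘ.form, h, smul_apply, inner_smul_right, one_apply_eq_self,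
      inner_self_eq_norm_sq_to_K, inner_self_eq_norm_sq_to_K]
    norm_cast
  have i1 : Integrable (fun y => ‖j (x * r y b)‖ ^ 2) ν := row_int P x b
  have i2 : Integrable (fun y => ‖j (r y b * x)‖ ^ 2) ν := P.itgY.int b x
  have e := eq_of_cs (row_cont P x b) (col_cont P b x)
    (memLp_of_cont_int (row_cont P x b) i1) (memLp_of_cont_int (col_cont P b x) i2)
    (integral_sq_row P b x).le (integral_sq_col P b x).le h3
  have e1 : j (x * r 1 b) = j (r 1 b * x) := congrFun e 1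
  rw [P.actY.one] at e1
  exact e1

/-- `Θ` does not vanish -/
theorem theta_ne (P : Pk j α U μ r R ν) {Θ : A → A → (L →L[ℂ] L)} (hΘ : ThL j α U r ν Θ)
    [SecondCountableTopology Y] [OpensMeasurableSpace Y] [ν.IsOpenPosMeasure]
    (hne : ∃ a : A, j a ≠ 0) : ∃ b c, Θ b c ≠ 0 := by
  by_contra hcon
  push Not at hcon
  obtain ⟨a, ha⟩ := hne
  -- all triple products vanish
  have h1 : ∀ u b s : A, j (u * b * star s) = 0 := by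
    intro u b s
    have h2 := hΘ.form b b (star s * s) (star u * u)
    rw [hcon b b] at h2
    have e : ∀ y, ⟪j (star u * u * r y b), j (r y b * (star s * s))⟫_ℂ =
        ((‖j (u * r y b * star s)‖ ^ 2 : ℝ) : ℂ) := by
      intro y
      have e1 : ⟪j (u * r y b * star s), j (u * r y b * star s)⟫_ℂ =
          ⟪j (star u * u * r y b), j (r y b * (star s * s))⟫_ℂ := by
        rw [P.ha.right, star_star, mul_assoc (star u) u,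
          P.ha.left (star u) (u * r y b) (r y b * (star s * s)), star_star]
        simp only [mul_assoc]
      rw [← e1, inner_self_eq_norm_sq_to_K]
      norm_cast
    simp only [e] at h2
    rw [integral_complex_ofReal] at h2
    have h3 : ∫ y, ‖j (u * r y b * star s)‖ ^ 2 ∂ν = 0 := by
      refine Complex.ofReal_injective ?_
      rw [← h2]
      simp
    obtain ⟨C, hC0, hC⟩ := P.ha.bddR (star s)
    have hcont : Continuous fun y => j (u * r y b * star s) := by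
      have h5 : Continuous fun y => j (r y b * star s) := col_cont P b (star s)
      have h6 := P.ha.cont_mulL u h5
      simpa only [mul_assoc] using h6
    have hint : Integrable (fun y => ‖j (u * r y b * star s)‖ ^ 2) ν := by
      refine ((row_int P u b).const_mul (C ^ 2)).mono (hcont.norm.pow 2).aestronglyMeasurable
        (Eventually.of_forall fun y => ?_)
      rw [Real.norm_of_nonneg (by positivity), Real.norm_of_nonneg (by positivity), ← mul_pow]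
      exact pow_le_pow_left₀ (norm_nonneg _) (hC _) 2
    have h4 := (integral_eq_zero_iff_of_nonneg (fun y => by positivity) hint).1 h3
    have h5 : (fun y => ‖j (u * r y b * star s)‖ ^ 2) = 0 :=
      (Continuous.ae_eq_iff_eq ν (hcont.norm.pow 2) continuous_const).1 h4
    have h6 : ‖j (u * r 1 b * star s)‖ ^ 2 = 0 := congrFun h5 1
    rw [sq_eq_zero_iff, norm_eq_zero, P.actY.one] at h6
    exact h6
  have h2 : ∀ b c : A, j (b * c) = 0 := by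
    intro b c
    have h3 := integral_sq_col P a (b * c)
    have h4 : ∀ y, j (r y a * (b * c)) = 0 := by
      intro y
      have := h1 (r y a) b (star c)
      rwa [star_star, mul_assoc] at this
    simp only [h4, norm_zero] at h3
    have h5 : ‖j a‖ ^ 2 * ‖j (b * c)‖ ^ 2 = 0 := by
      rw [← h3]; simp
    rcases mul_eq_zero.1 h5 with h6 | h6
    · exact absurd (norm_eq_zero.1 (sq_eq_zero_iff.1 h6)) ha
    · exact norm_eq_zero.1 (sq_eq_zero_iff.1 h6)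
  have h3 := integral_sq_col P a a
  simp only [h2, norm_zero] at h3
  have h5 : ‖j a‖ ^ 2 * ‖j a‖ ^ 2 = 0 := by
    rw [← h3]; simp
  have h6 : 0 < ‖j a‖ := norm_pos_iff.2 ha
  have : 0 < ‖j a‖ ^ 2 * ‖j a‖ ^ 2 := by positivity
  exact this.ne' h5

/-- **Theorem C, single version, abstract form**: the sup bound, the density of the coefficients and
the group hypothesis give the commutativity. -/
theorem single_comm [SecondCountableTopology Y] [OpensMeasurableSpace Y] [ν.IsOpenPosMeasure]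
    (P : Pk j α U μ r R ν)
    (h0 : ∀ b c : L, Tendsto (fun t => ⟪c, U t b⟫_ℂ) (cocompact H) (𝓝 0))
    (hd : Dense (Submodule.span ℂ (Set.range fun p : A × A => ph P h0 p.1 p.2) : Set C₀(H, ℂ)))
    {Θ : A → A → (L →L[ℂ] L)} (hΘ : ThL j α U r ν Θ)
    (hsup : ∀ x : A, ∀ (n : ℕ) (b c : Fin n → A) (K : ℝ),
      (∀ t, ‖∑ k, ⟪j (c k), j (α t (b k))⟫_ℂ‖ ≤ K) →
      ‖∑ k, ⟪j x, Θ (b k) (c k) (j x)⟫_ℂ‖ ≤ ‖j x‖ ^ 2 * K)
    (hgrp : ∀ S : Set H, IsClosed S → (∀ s, ∀ t ∈ S, s * t * s⁻¹ ∈ S) →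
      (∀ s ∈ S, ∀ t ∈ S, s * t = t * s) → S ⊆ {1}) (a b : A) : j (a * b) = j (b * a) := by
  by_cases hne : ∃ a : A, j a ≠ 0
  swap
  · push Not at hne
    rw [hne, hne]
  obtain ⟨E, hE⟩ := exists_E P h0 hΘ.toThF hd (D := Set.range j) P.ha.dense (by
    rintro _ ⟨x, rfl⟩
    exact hsup x)
  have hex := exch_pair P P h0 h0 E E hE hE hΘ.exch
  have cv := cov_E P h0 hd E hE hΘ.cov
  obtain ⟨b₀, c₀, hne₀⟩ := theta_ne P hΘ hne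
  have hne' : ∃ (φ : C₀(H, ℂ)) (b c x z : L), (∀ t, φ t = ⟪c, U t b⟫_ℂ) ∧
      ⟪z, E φ x⟫_ℂ ≠ 0 := by
    by_contra hcon
    push Not at hcon
    apply hne₀
    refine ContinuousLinearMap.ext fun x => ?_
    refine ext_inner_left ℂ fun z => ?_
    have := hcon (ph P h0 b₀ c₀) (j b₀) (j c₀) x z (fun _ => rfl)
    rw [hE] at this
    rw [this]
    simp
  have hfin := hex.single cv hgrp hne'
  refine comm_of_theta P hΘ (fun b c => ?_) a b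
  rw [← hE, hfin, ph_apply, P.actH.one]

end single

end Vale.Agent.P092.H978
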