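import Vale.Agent.P092.H565.Theta
import Vale.Agent.P092.H978.GlueC

/-!
Theorem C (#3269), step (2): the product formula for the operators `Th b c` of `H565/Theta.lean`;
they form a family `ThL`.
-/

set_option linter.all false

open MeasureTheory Filter Topology
open scoped InnerProductSpace ZeroAtInfty

namespace Vale.Agent.P092.H978

open Vale.Agent.P092.H242.ThC Vale.Agent.P092.H565

variable {A L : Type*} [NonUnitalRing A] [StarRing A] [Module ℂ A] [SMulCommClass ℂ A A]
  [IsScalarTower ℂ A A] [NormedAddCommGroup L] [InnerProductSpace ℂ L] [CompleteSpace L]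
  {j : A →ₗ[ℂ] L}
variable {Y : Type*} [Group Y] [TopologicalSpace Y] [IsTopologicalGroup Y]
  [SecondCountableTopology Y] [MeasurableSpace Y] [BorelSpace Y] {ν : Measure Y}
  {r : Y → A → A} {R : Y →* (L →L[ℂ] L)}

/-- the square integral of a family of operators on a vector -/
theorem sq_int_lm (hj : HA j) (hr : Act j r R) (hi : Itg j r ν) (a : A) (x : L) :
    Integrable (fun y => ‖lm hj (r y a) x‖ ^ 2) ν ∧
      ∫ y, ‖lm hj (r y a) x‖ ^ 2 ∂ν = ‖j a‖ ^ 2 * ‖x‖ ^ 2 := by
  refine ⟨((sq_lm hj hr hi a).memLp x).integrable_norm_pow two_ne_zero, ?_⟩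
  have h := int_lm hj hr hi a a x x
  have e : ∀ y, ⟪lm hj (r y a) x, lm hj (r y a) x⟫_ℂ = ((‖lm hj (r y a) x‖ ^ 2 : ℝ) : ℂ) := by
    intro y
    rw [inner_self_eq_norm_sq_to_K]
    norm_cast
  simp only [e] at h
  rw [integral_complex_ofReal, inner_self_eq_norm_sq_to_K, inner_self_eq_norm_sq_to_K] at h
  refine Complex.ofReal_injective ?_
  rw [h]
  push_cast
  rfl

theorem sq_int_rm (hj : HA j) (hr : Act j r R) (hi : Itg j r ν) (a : A) (x : L) :
    Integrable (fun y => ‖rm hj (r y a) x‖ ^ 2) ν ∧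
      ∫ y, ‖rm hj (r y a) x‖ ^ 2 ∂ν = ‖j a‖ ^ 2 * ‖x‖ ^ 2 := by
  refine ⟨((sq_rm hj hr hi a).memLp x).integrable_norm_pow two_ne_zero, ?_⟩
  have h := int_rm hj hr hi a a x x
  have e : ∀ y, ⟪rm hj (r y a) x, rm hj (r y a) x⟫_ℂ = ((‖rm hj (r y a) x‖ ^ 2 : ℝ) : ℂ) := by
    intro y
    rw [inner_self_eq_norm_sq_to_K]
    norm_cast
  simp only [e] at h
  rw [integral_complex_ofReal, inner_self_eq_norm_sq_to_K, inner_self_eq_norm_sq_to_K] at h
  refine Complex.ofReal_injective ?_
  rw [h]
  push_cast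
  rfl

/-- the square function of the double family is integrable on the product -/
theorem sq_prod_lm {H : Type*} [Group H] [TopologicalSpace H] [MeasurableSpace H]
    {α : H → A → A} {U : H →* (L →L[ℂ] L)} {μ : Measure H} [SFinite ν]
    (P : Pk j α U μ r R ν) (b b' : A) (x : L) :
    Integrable (fun p : Y × Y => ‖lm P.ha (r p.1 (b * r p.2 b')) x‖ ^ 2) (ν.prod ν) := by
  have hcont : Continuous fun p : Y × Y => lm P.ha (r p.1 (b * r p.2 b')) x := by
    have h1 : Continuous fun p : Y × Y => lm P.ha (r (p.1 * p.2) b') x :=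
      cont_lm P.ha P.actY (g := fun p : Y × Y => p.1 * p.2) (by fun_prop) b' continuous_const
    have h2 : Continuous fun p : Y × Y => lm P.ha (r p.1 b) (lm P.ha (r (p.1 * p.2) b') x) :=
      cont_lm P.ha P.actY (g := fun p : Y × Y => p.1) continuous_fst b h1
    refine h2.congr fun p => ?_
    rw [P.actY.mul, P.actY.act, lm_mul]
    rfl
  have hm : AEStronglyMeasurable (fun p : Y × Y => ‖lm P.ha (r p.1 (b * r p.2 b')) x‖ ^ 2) (ν.prod ν) :=
    (hcont.norm.pow 2).aestronglyMeasurable
  rw [integrable_prod_iff' hm]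
  refine ⟨Eventually.of_forall fun w => ?_, ?_⟩
  · exact (sq_int_lm P.ha P.actY P.itgY (b * r w b') x).1
  · have e : ∀ w, ∫ y, ‖‖lm P.ha (r y (b * r w b')) x‖ ^ 2‖ ∂ν =
        ‖j (b * r w b')‖ ^ 2 * ‖x‖ ^ 2 := by
      intro w
      rw [← (sq_int_lm P.ha P.actY P.itgY (b * r w b') x).2]
      refine integral_congr_ae (Eventually.of_forall fun y => ?_)
      simp only
      rw [Real.norm_of_nonneg (by positivity)]
    simp only [e]
    exact (row_int P b b').mul_const _

theorem sq_prod_rm {H : Type*} [Group H] [TopologicalSpace H] [MeasurableSpace H]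
    {α : H → A → A} {U : H →* (L →L[ℂ] L)} {μ : Measure H} [SFinite ν]
    (P : Pk j α U μ r R ν) (b b' : A) (x : L) :
    Integrable (fun p : Y × Y => ‖rm P.ha (r p.1 (b * r p.2 b')) x‖ ^ 2) (ν.prod ν) := by
  have hcont : Continuous fun p : Y × Y => rm P.ha (r p.1 (b * r p.2 b')) x := by
    have h1 : Continuous fun p : Y × Y => rm P.ha (r p.1 b) x :=
      cont_rm P.ha P.actY (g := fun p : Y × Y => p.1) (by fun_prop) b continuous_const
    have h2 : Continuous fun p : Y × Y => rm P.ha (r (p.1 * p.2) b') (rm P.ha (r p.1 b) x) :=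
      cont_rm P.ha P.actY (g := fun p : Y × Y => p.1 * p.2) (by fun_prop) b' h1
    refine h2.congr fun p => ?_
    rw [P.actY.mul, P.actY.act, rm_mul]
    rfl
  have hm : AEStronglyMeasurable (fun p : Y × Y => ‖rm P.ha (r p.1 (b * r p.2 b')) x‖ ^ 2) (ν.prod ν) :=
    (hcont.norm.pow 2).aestronglyMeasurable
  rw [integrable_prod_iff' hm]
  refine ⟨Eventually.of_forall fun w => ?_, ?_⟩
  · exact (sq_int_rm P.ha P.actY P.itgY (b * r w b') x).1
  · have e : ∀ w, ∫ y, ‖‖rm P.ha (r y (b * r w b')) x‖ ^ 2‖ ∂ν =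
        ‖j (b * r w b')‖ ^ 2 * ‖x‖ ^ 2 := by
      intro w
      rw [← (sq_int_rm P.ha P.actY P.itgY (b * r w b') x).2]
      refine integral_congr_ae (Eventually.of_forall fun y => ?_)
      simp only
      rw [Real.norm_of_nonneg (by positivity)]
    simp only [e]
    exact (row_int P b b').mul_const _

/-- **the product formula** -/
theorem Th_prod {H : Type*} [Group H] [TopologicalSpace H] [MeasurableSpace H]
    {α : H → A → A} {U : H →* (L →L[ℂ] L)} {μ : Measure H} [SFinite ν] [ν.IsMulLeftInvariant]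
    (P : Pk j α U μ r R ν) (b c b' c' : A) (x z : L) :
    ⟪z, Th P.ha P.actY P.itgY b c (Th P.ha P.actY P.itgY b' c' x)⟫_ℂ =
      ∫ w, ⟪z, Th P.ha P.actY P.itgY (b * r w b') (c * r w c') x⟫_ℂ ∂ν := by
  set F : Y → Y → ℂ := fun y w =>
    ⟪rm P.ha (r y (c * r w c')) z, lm P.ha (r y (b * r w b')) x⟫_ℂ with hF
  have e1 : ⟪z, Th P.ha P.actY P.itgY b c (Th P.ha P.actY P.itgY b' c' x)⟫_ℂ =
      ∫ y, ∫ w, F y w ∂ν ∂ν := by
    rw [inner_Th]
    refine integral_congr_ae (Eventually.of_forall fun y => ?_)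
    simp only
    rw [inner_lm', inner_Th, ← integral_mul_left_eq_self _ y]
    refine integral_congr_ae (Eventually.of_forall fun w => ?_)
    simp only [hF]
    rw [P.actY.mul, P.actY.mul, P.actY.act, P.actY.act, lm_mul, rm_mul, ← lm_rm, inner_lm,
      star_star]
    rfl
  have hint : Integrable (fun p : Y × Y => F p.1 p.2) (ν.prod ν) := by
    have hc1 : Continuous fun p : Y × Y => lm P.ha (r p.1 (b * r p.2 b')) x := by
      have h1 : Continuous fun p : Y × Y => lm P.ha (r (p.1 * p.2) b') x :=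
        cont_lm P.ha P.actY (g := fun p : Y × Y => p.1 * p.2) (by fun_prop) b' continuous_const
      have h2 : Continuous fun p : Y × Y => lm P.ha (r p.1 b) (lm P.ha (r (p.1 * p.2) b') x) :=
        cont_lm P.ha P.actY (g := fun p : Y × Y => p.1) continuous_fst b h1
      refine h2.congr fun p => ?_
      rw [P.actY.mul, P.actY.act, lm_mul]
      rfl
    have hc2 : Continuous fun p : Y × Y => rm P.ha (r p.1 (c * r p.2 c')) z := by
      have h1 : Continuous fun p : Y × Y => rm P.ha (r p.1 c) z :=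
        cont_rm P.ha P.actY (g := fun p : Y × Y => p.1) (by fun_prop) c continuous_const
      have h2 : Continuous fun p : Y × Y => rm P.ha (r (p.1 * p.2) c') (rm P.ha (r p.1 c) z) :=
        cont_rm P.ha P.actY (g := fun p : Y × Y => p.1 * p.2) (by fun_prop) c' h1
      refine h2.congr fun p => ?_
      rw [P.actY.mul, P.actY.act, rm_mul]
      rfl
    refine ((sq_prod_lm P b b' x).add (sq_prod_rm P c c' z)).mono
      (hc2.inner hc1).aestronglyMeasurable (Eventually.of_forall fun p => ?_)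
    simp only [hF, Pi.add_apply]
    rw [Real.norm_of_nonneg (by positivity)]
    refine (norm_inner_le_norm _ _).trans ?_
    nlinarith [sq_nonneg (‖rm P.ha (r p.1 (c * r p.2 c')) z‖ - ‖lm P.ha (r p.1 (b * r p.2 b')) x‖),
      sq_nonneg ‖rm P.ha (r p.1 (c * r p.2 c')) z‖, sq_nonneg ‖lm P.ha (r p.1 (b * r p.2 b')) x‖]
  rw [e1, integral_integral_swap hint]
  refine integral_congr_ae (Eventually.of_forall fun w => ?_)
  simp only
  rw [inner_Th]

/-- the family `Th` satisfies all the hypotheses of the assembly. -/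
theorem thL {H : Type*} [Group H] [TopologicalSpace H] [MeasurableSpace H]
    {α : H → A → A} {U : H →* (L →L[ℂ] L)} {μ : Measure H} [SFinite ν] [ν.IsMulLeftInvariant]
    [ν.IsInvInvariant] (P : Pk j α U μ r R ν) :
    ThL j α U r ν (Th P.ha P.actY P.itgY) where
  add_left := Th_add_left P.ha P.actY P.itgY
  smul_left := Th_smul_left P.ha P.actY P.itgY
  add_right := Th_add_right P.ha P.actY P.itgY
  smul_right := Th_smul_right P.ha P.actY P.itgY
  bdd := norm_Th_le P.ha P.actY P.itgY
  adj := Th_star P.ha P.actY P.itgY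
  prod := fun b c b' c' x z => Th_prod P b c b' c' x z
  form := fun b c x z => inner_Th_j P.ha P.actY P.itgY b c z x
  cov := fun h b c => by
    refine ContinuousLinearMap.ext fun x => ?_
    rw [mul_apply_eq_comp, mul_apply_eq_comp, Th_U P.ha P.actY P.itgY P.actH P.comm,
      P.actH.app_inv]
  exch := fun b c x z => Th_exch P.ha P.actY P.itgY x z b c

end Vale.Agent.P092.H978
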