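import Vale.Agent.P092.H978.C2b
import Vale.Agent.P092.H821.Th4

/-!
P092 (helper978), project Q, block [Q-C2], part 3: the operators `Θ` of helper821 on the completion
of the two sided algebra of the other leg; **`c2Stmt : Q.C2Stmt`**.
-/

set_option linter.all false

open MeasureTheory Filter Topology ContinuousLinearMap
open scoped InnerProductSpace ENNReal NNReal ZeroAtInfty

namespace Vale.Agent.P092.H978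

open Vale.Agent.P092.H160
open Vale.Agent.P092.H156.Sm
open Vale.Agent.P092.H650
open Vale.Agent.P092.H715.Q
open Vale.Agent.P092.H720
open Vale.Agent.P092.H242.ThC
open Vale.Agent.P092.PA (FacS)
open Vale.Agent.P092.H821 (th SqB Rl Md Tm xb bx sqB_smo fd_th l2_th inner_Tm' Tm_ThF)

section acont

variable {A L X Λ G G' H K : Type} [NonUnitalRing A] [StarRing A] [Module ℂ A]
  [SMulCommClass ℂ A A] [IsScalarTower ℂ A A]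
  [NormedAddCommGroup L] [InnerProductSpace ℂ L] [CompleteSpace L] [Group X] [Countable X] [Group Λ]
  [Group G] [TopologicalSpace G] [IsTopologicalGroup G]
  [SecondCountableTopology G] [MeasurableSpace G] [BorelSpace G]
  [Group G'] [TopologicalSpace G'] [MeasurableSpace G']
  [Group H] [TopologicalSpace H]
  [NormedAddCommGroup K] [InnerProductSpace ℂ K] [CompleteSpace K]
  {j : A →ₗ[ℂ] L} {r : G → A → A} {ι : X →* G} {ρ : X →* (K →L[ℂ] K)} {μ : Measure G}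
  {φ : A →ₗ[ℂ] (G → K →L[ℂ] K)} {ω : K}
  {α : H → A → A} {U : H →* (L →L[ℂ] L)} {κ : Λ →* H} {V : Λ →* (K →L[ℂ] K)}
  {x : G' → K →L[ℂ] K}

theorem norm_cj_le (hF : Frm ρ V ω) (v : Λ) (T : K →L[ℂ] K) : ‖V v * T * V v⁻¹‖ ≤ ‖T‖ :=
  calc ‖V v * T * V v⁻¹‖ ≤ ‖V v‖ * ‖T‖ * ‖V v⁻¹‖ :=
        (norm_mul_le _ _).trans (by gcongr; exact norm_mul_le _ _)
    _ ≤ 1 * ‖T‖ * 1 := by
        gcongr
        · exact hF.norm_le v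
        · exact hF.norm_le _
    _ = ‖T‖ := by ring

/-- `u ↦ th (φ a) (φ b) (x u)` is continuous for the conjugation, if `x`, `a`, `b` are -/
theorem acont_th [μ.IsMulLeftInvariant] (hF : Frm ρ V ω) (hφ : Rl j r ι ρ μ φ) (hα : Act j α U)
    (hcj : ∀ v a y, φ (α (κ v) a) y = V v * φ a y * V v⁻¹) (hx : ACont κ V x)
    (hC : ∃ C, ∀ u, ‖x u‖ ≤ C) (a b : A) : ACont κ V (fun u => th μ (φ a) (φ b) (x u)) := by
  intro ε hε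
  obtain ⟨C, hC⟩ := hC
  set C' : ℝ := max C 0 with hC'
  have hC0 : 0 ≤ C' := le_max_right _ _
  have hCx : ∀ u, ‖x u‖ ≤ C' := fun u => (hC u).trans (le_max_left _ _)
  set D : ℝ := ‖j b‖ * C' + ‖j a‖ * C' + ‖j a‖ * ‖j b‖ + 1 with hD
  have hD0 : 0 < D := by positivity
  set δ := ε / D with hδ
  have hδ0 : 0 < δ := div_pos hε hD0
  obtain ⟨W, hW, hWx⟩ := hx δ hδ0
  have cont : ∀ a : A, ∀ᶠ h in 𝓝 (1 : H), ‖j (α h a - a)‖ < δ := by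
    intro a
    have h1 : Tendsto (fun h => j (α h a)) (𝓝 1) (𝓝 (j (α 1 a))) := (hα.contj a).continuousAt
    rw [tendsto_iff_norm_sub_tendsto_zero] at h1
    have h2 := h1.eventually_lt_const hδ0
    filter_upwards [h2] with h hh
    rwa [hα.one, ← map_sub] at hh
  refine ⟨W ∩ ({h | ‖j (α h a - a)‖ < δ} ∩ {h | ‖j (α h b - b)‖ < δ}),
    inter_mem hW (inter_mem (cont a) (cont b)), fun v hv u => ?_⟩
  obtain ⟨hv1, hv2, hv3⟩ := hv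
  have hva : ‖j (α (κ v) a - a)‖ < δ := hv2
  have hvb : ‖j (α (κ v) b - b)‖ < δ := hv3
  set T' := V v * x u * V v⁻¹ with hT'
  have ea : φ (α (κ v) a) = fun y => V v * φ a y * V v⁻¹ := funext (hcj v a)
  have eb : φ (α (κ v) b) = fun y => V v * φ b y * V v⁻¹ := funext (hcj v b)
  have sa := hφ.sq (α (κ v) a)
  have sb := hφ.sq (α (κ v) b)
  have e1 : V v * th μ (φ a) (φ b) (x u) * V v⁻¹ =
      th μ (φ (α (κ v) a)) (φ (α (κ v) b)) T' := by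
    rw [ea] at sa ⊢
    rw [eb] at sb ⊢
    exact (Vale.Agent.P092.H821.th_conj (hφ.sq a) (hφ.sq b) (hF.adj v) (hF.mul_inv v)
      (hF.inv_mul v) sa sb (x u)).symm
  have e2 : th μ (φ (α (κ v) a)) (φ (α (κ v) b)) T' =
      th μ (φ (α (κ v) a - a)) (φ (α (κ v) b)) T' + th μ (φ a) (φ (α (κ v) b)) T' := by
    rw [← hφ.th_addl, sub_add_cancel]
  have e3 : th μ (φ a) (φ (α (κ v) b)) T' =
      th μ (φ a) (φ (α (κ v) b - b)) T' + th μ (φ a) (φ b) T' := by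
    rw [← hφ.th_addr, sub_add_cancel]
  have e4 : th μ (φ a) (φ b) T' = th μ (φ a) (φ b) (T' - x u) + th μ (φ a) (φ b) (x u) := by
    rw [← hφ.th_add, sub_add_cancel]
  have e5 : V v * th μ (φ a) (φ b) (x u) * V v⁻¹ - th μ (φ a) (φ b) (x u) =
      th μ (φ (α (κ v) a - a)) (φ (α (κ v) b)) T' + th μ (φ a) (φ (α (κ v) b - b)) T' +
        th μ (φ a) (φ b) (T' - x u) := by
    rw [e1, e2, e3, e4]; abel
  have hT1 : ‖T'‖ ≤ C' := (norm_cj_le hF v _).trans (hCx u)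
  have hT2 : ‖T' - x u‖ ≤ δ := hWx v hv1 u
  have b1 : ‖th μ (φ (α (κ v) a - a)) (φ (α (κ v) b)) T'‖ ≤ δ * ‖j b‖ * C' := by
    refine (hφ.th_le _ _ _).trans ?_
    rw [hα.norm]
    gcongr
  have b2 : ‖th μ (φ a) (φ (α (κ v) b - b)) T'‖ ≤ ‖j a‖ * δ * C' := by
    refine (hφ.th_le _ _ _).trans ?_
    gcongr
  have b3 : ‖th μ (φ a) (φ b) (T' - x u)‖ ≤ ‖j a‖ * ‖j b‖ * δ := by
    refine (hφ.th_le _ _ _).trans ?_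
    gcongr
  simp only
  rw [e5]
  refine (norm_add₃_le).trans ((add_le_add (add_le_add b1 b2) b3).trans ?_)
  have h6 : δ * ‖j b‖ * C' + ‖j a‖ * δ * C' + ‖j a‖ * ‖j b‖ * δ ≤ δ * D := by
    rw [hD]
    nlinarith [hδ0]
  refine h6.trans (le_of_eq ?_)
  rw [hδ, div_mul_cancel₀ _ hD0.ne']

end acont

section rl

variable {Γ X Y₁ Y₂ K G₁ G₂ H : Type} [Group Γ] [Countable Γ] [Group X] [Countable X] [Group Y₁]
    [Countable Y₁] [Group Y₂] [Countable Y₂]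
    [NormedAddCommGroup K] [InnerProductSpace ℂ K] [CompleteSpace K]
    [Group G₁] [TopologicalSpace G₁] [IsTopologicalGroup G₁] [LocallyCompactSpace G₁]
    [SecondCountableTopology G₁] [T2Space G₁] [MeasurableSpace G₁] [BorelSpace G₁]
    [Group G₂] [TopologicalSpace G₂] [IsTopologicalGroup G₂] [LocallyCompactSpace G₂]
    [SecondCountableTopology G₂] [T2Space G₂] [MeasurableSpace G₂] [BorelSpace G₂]
    [Group H] [TopologicalSpace H] [IsTopologicalGroup H] [LocallyCompactSpace H]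
    [SecondCountableTopology H] [T2Space H] [MeasurableSpace H] [BorelSpace H]
    {V R₁ R₂ : Γ →* (K →L[ℂ] K)} {f₁ f₂ : X →* Γ} {ρ : X →* (K →L[ℂ] K)} {f₁' : Y₁ →* Γ}
    {ρ₁' : Y₁ →* (K →L[ℂ] K)} {f₂' : Y₂ →* Γ} {ρ₂' : Y₂ →* (K →L[ℂ] K)} {ω : K}
    {p₁ : Γ →* G₁} {p₂ : Γ →* G₂} {κ : Γ →* H}
    {μ₁ : Measure G₁} [μ₁.IsHaarMeasure] [μ₁.IsMulRightInvariant]
    {μ₂ : Measure G₂} [μ₂.IsHaarMeasure] [μ₂.IsMulRightInvariant]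
    {ν : Measure H} [ν.IsHaarMeasure] [ν.IsMulRightInvariant]
    {D₁ : Dbl V R₁ f₁ ρ f₁' ρ₁' ω} {D₂ : Dbl V R₂ f₂ ρ f₂' ρ₂' ω} {hκ : DenseRange κ}

/-- the inclusion of the two sided algebra -/
noncomputable def inc (D₁ : Dbl V R₁ f₁ ρ f₁' ρ₁' ω) (hκ : DenseRange κ) (p₁ : Γ →* G₁)
    (μ₁ : Measure G₁) [μ₁.IsMulLeftInvariant] (ν : Measure H) [ν.IsMulLeftInvariant] :
    TA D₁ hκ p₁ μ₁ ν →ₗ[ℂ] (G₁ → K →L[ℂ] K) where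
  toFun := fun a => a.1
  map_add' := fun a b => rfl
  map_smul' := fun c b => rfl

theorem rl_TA' (hp₁ : DenseRange p₁) (h1 : F1 (p₁.comp f₁) κ ρ V ω μ₁) :
    Rl (jj D₁ hκ p₁ μ₁ ν) (rT D₁ hκ hp₁ μ₁ ν) (p₁.comp f₁) ρ μ₁ (inc D₁ hκ p₁ μ₁ ν) where
  fd := fun a => a.2.smo.toFd
  sq := fun a => by
    rw [Vale.Agent.P092.H100Q.norm_jj_eq]
    exact sqB_smo D₁.fr h1 a.2.smo
  mul := fun a b y => rfl
  st := fun a y => rfl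
  rt := fun w a y => rfl

/-- the map of the smooth fields of the second leg to the completion -/
noncomputable def eS (D₂ : Dbl V R₂ f₂ ρ f₂' ρ₂' ω) (hκ : DenseRange κ) (hp₂ : DenseRange p₂)
    (h2 : F1 (p₂.comp f₂) κ ρ V ω μ₂) (hne₂ : ∃ b, TwS V f₂ ρ ω p₂ κ μ₂ ν b ∧ b ≠ 0) :
    SmS (p₂.comp f₂) κ ρ V ω μ₂ →ₗ[ℂ] LL D₂ hκ p₂ μ₂ ν :=
  (sv (p₂.comp f₂) κ ρ V ω μ₂).codRestrict (LL D₂ hκ p₂ μ₂ ν)
    (fun b => vec_mem_LL D₂ hκ hp₂ h2 hne₂ b.2)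

theorem md_SmS (hp₁ : DenseRange p₁) (hp₂ : DenseRange p₂)
    (h1 : F1 (p₁.comp f₁) κ ρ V ω μ₁) (h2 : F1 (p₂.comp f₂) κ ρ V ω μ₂)
    (hne₂ : ∃ b, TwS V f₂ ρ ω p₂ κ μ₂ ν b ∧ b ≠ 0)
    {U₁ : H →* (LL D₁ hκ p₁ μ₁ ν →L[ℂ] LL D₁ hκ p₁ μ₁ ν)}
    (hU₁ : Act (jj D₁ hκ p₁ μ₁ ν) (aT D₁ hκ μ₁ ν) U₁) :
    Md μ₁ (inc D₁ hκ p₁ μ₁ ν) (p₂.comp f₂) ρ ω μ₂ (SmS (p₂.comp f₂) κ ρ V ω μ₂)
      (eS (ν := ν) D₂ hκ hp₂ h2 hne₂) where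
  fd := fun x hx => hx.toFd
  l2 := fun x hx => hx.l2
  inn := fun z x => (ip_eq_inner z.2 x.2).symm
  dense := by
    refine (dense_jj D₂ hκ p₂ μ₂ ν).mono ?_
    rintro _ ⟨b, rfl⟩
    exact ⟨⟨b.1, b.2.smo⟩, rfl⟩
  inv := fun a b x hx => by
    have hφ := rl_TA' (ν := ν) (D₁ := D₁) (hκ := hκ) hp₁ h1
    have hs1 := hφ.sq a
    have hs2 := hφ.sq b
    exact
      { toFd := fd_th D₁.fr.reg hs1 hs2 (hφ.fd a) (hφ.fd b) hx.toFd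
        acont := acont_th D₁.fr hφ hU₁ (fun v a y => al_coe D₁.fr hκ a.2.smo.acont v y)
          hx.acont hx.bdd a b
        l2 := l2_th D₁.fr.reg hs1 hs2 (hφ.fd a) (hφ.fd b) hx.toFd hx.l2 }

/-- **the operators `Θ`** -/
theorem exists_theta (hp₁ : DenseRange p₁) (hp₂ : DenseRange p₂)
    (h1 : F1 (p₁.comp f₁) κ ρ V ω μ₁) (h1' : F1 (κ.comp f₁') p₁ ρ₁' R₁ ω ν)
    (h2 : F1 (p₂.comp f₂) κ ρ V ω μ₂) (hne₂ : ∃ b, TwS V f₂ ρ ω p₂ κ μ₂ ν b ∧ b ≠ 0) :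
    ∃ Θ : TA D₁ hκ p₁ μ₁ ν → TA D₁ hκ p₁ μ₁ ν → (LL D₂ hκ p₂ μ₂ ν →L[ℂ] LL D₂ hκ p₂ μ₂ ν),
      ThF (jj D₁ hκ p₁ μ₁ ν) (rT D₁ hκ hp₁ μ₁ ν) μ₁ Θ ∧ FrmTh D₁ D₂ hκ Θ := by
  haveI : μ₁.IsInvInvariant := Vale.Agent.P092.H448.Gal.invInv_of_right μ₁
  haveI : ν.IsInvInvariant := Vale.Agent.P092.H448.Gal.invInv_of_right ν
  obtain ⟨c₁, U₁, S₁, hc₁, P₁⟩ := exists_pk D₁ hκ hp₁ μ₁ ν h1 h1'
  have hφ := rl_TA' (ν := ν) (D₁ := D₁) (hκ := hκ) hp₁ h1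
  have hM := md_SmS (D₂ := D₂) hp₁ hp₂ h1 h2 hne₂ P₁.actH
  refine ⟨Tm hφ hM, Tm_ThF D₁.fr.reg hφ hM P₁, fun b c z x => ?_⟩
  exact inner_Tm' D₁.fr.reg hφ hM P₁ b c ⟨z.1, z.2.smo⟩ ⟨x.1, x.2.smo⟩

end rl

/-- **[Q-C2]** -/
theorem c2Stmt : Vale.Agent.P092.Q.C2Stmt := by
  intro Γ X Y₁ Y₂ K G₁ G₂ H _ _ _ _ _ _ _ _ _ _ _ _ _ _ _ _ _ _ _ _ _ _ _ _ _ _ _ _ _ _ _ _ _ _ _
    V R₁ R₂ f₁ f₂ ρ f₁' ρ₁' f₂' ρ₂' ω p₁ p₂ κ μ₁ _ _ μ₂ _ _ ν _ _ D₁ D₂ hR hρ hp₁ hp₂ hκ hG₁ hG₂ hH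
    h1 h1' h2 h2' hne₁ hne₂ a b ha hb x y
  obtain ⟨Θ₁, hΘ₁, hf₁⟩ := exists_theta (D₁ := D₁) (D₂ := D₂) (hκ := hκ) hp₁ hp₂ h1 h1' h2 hne₂
  obtain ⟨Θ₂, hΘ₂, hf₂⟩ := exists_theta (D₁ := D₂) (D₂ := D₁) (hκ := hκ) hp₂ hp₁ h2 h2' h1 hne₁
  exact c2_of hp₁ hp₂ hH h1 h1' h2 h2' hne₁ hne₂ hΘ₁ hf₁ hΘ₂ hf₂ ha hb x y

end Vale.Agent.P092.H978
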