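import Vale.Agent.P092.H978.GlueC
import Vale.Agent.P092.H100.Psi
import Vale.Agent.P092.H720.C1

/-!
P092 (helper978), project Q, block [Q-C2], part 1: the exchange of the two forms (rotation), the non
vanishing of `Θ` and the end of the proof.  Fields `b, c` over `G₁`, fields `z, x` over `G₂`.
-/

set_option linter.all false

open MeasureTheory Filter Topology ContinuousLinearMap
open scoped InnerProductSpace ENNReal NNReal ZeroAtInfty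

namespace Vale.Agent.P092.H978

open Vale.Agent.P092.H160
open Vale.Agent.P092.H156.Sm
open Vale.Agent.P092.H650
open Vale.Agent.P092.H715.Q
open Vale.Agent.P092.H796 (fd_fst fd_snd Iso nsq_ab l2_ab nsq_ba l2_ba)
open Vale.Agent.P092.H242.ThC

section forms

variable {Γ X G₁ G₂ H K : Type} [Group Γ] [Group X] [Countable X] [Group G₁] [Group G₂] [Group H]
  [TopologicalSpace G₁] [TopologicalSpace G₂] [TopologicalSpace H]
  [IsTopologicalGroup G₁] [IsTopologicalGroup G₂] [IsTopologicalGroup H]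
  [MeasurableSpace G₁] [BorelSpace G₁] [SecondCountableTopology G₁]
  [MeasurableSpace G₂] [BorelSpace G₂] [SecondCountableTopology G₂]
  [NormedAddCommGroup K] [InnerProductSpace ℂ K] [CompleteSpace K]
  {V : Γ →* (K →L[ℂ] K)} {κ : Γ →* H}
  {ρ : X →* (K →L[ℂ] K)} {ω : K} {ι₁ : X →* G₁} {ι₂ : X →* G₂}
  {μ₁ : Measure G₁} {μ₂ : Measure G₂} [SFinite μ₁] [SFinite μ₂]
  [μ₁.IsMulLeftInvariant] [μ₂.IsMulLeftInvariant]
  {b c : G₁ → K →L[ℂ] K} {x y z : G₂ → K →L[ℂ] K}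

theorem smo_iso {G : Type} [Group G] [TopologicalSpace G] [IsTopologicalGroup G]
    [MeasurableSpace G] [BorelSpace G] [SecondCountableTopology G] {ι : X →* G} {μ : Measure G}
    {a : G → K →L[ℂ] K} (h1 : F1 ι κ ρ V ω μ)
    (ha : Smo ι κ ρ V ω μ a) : Iso μ a (nsq ω μ a) := fun ζ => h1.lint ha ζ

theorem fdf_bx (hb : Fd ι₁ ρ b) (hx : Fd ι₂ ρ x) :
    Fd (ι₂.prod ι₁) ρ (fun w : G₂ × G₁ => b w.2 * x w.1) := (fd_snd ι₂ hb).mul (fd_fst ι₁ hx)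

theorem fdf_xb (hb : Fd ι₁ ρ b) (hx : Fd ι₂ ρ x) :
    Fd (ι₂.prod ι₁) ρ (fun w : G₂ × G₁ => x w.1 * b w.2) := (fd_fst ι₁ hx).mul (fd_snd ι₂ hb)

theorem l2f_bx (h1 : F1 ι₁ κ ρ V ω μ₁) (hb : Smo ι₁ κ ρ V ω μ₁ b) (hx : Fd ι₂ ρ x)
    (hx2 : L2 ω μ₂ x) : L2 ω (μ₂.prod μ₁) (fun w : G₂ × G₁ => b w.2 * x w.1) :=
  l2_ba hb.toFd.continuous hx.continuous (smo_iso h1 hb) (nsq_lt_top hb.l2).ne hx2

theorem l2f_xb (h2 : F1 ι₂ κ ρ V ω μ₂) (hx : Smo ι₂ κ ρ V ω μ₂ x) (hb : Fd ι₁ ρ b)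
    (hb2 : L2 ω μ₁ b) : L2 ω (μ₂.prod μ₁) (fun w : G₂ × G₁ => x w.1 * b w.2) :=
  l2_ab hb.continuous hx.toFd.continuous (smo_iso h2 hx) (nsq_lt_top hx.l2).ne hb2

theorem nsqf_bx (h1 : F1 ι₁ κ ρ V ω μ₁) (hb : Smo ι₁ κ ρ V ω μ₁ b) (hx : Fd ι₂ ρ x) :
    nsq ω (μ₂.prod μ₁) (fun w : G₂ × G₁ => b w.2 * x w.1) = nsq ω μ₁ b * nsq ω μ₂ x :=
  nsq_ba hb.toFd.continuous hx.continuous (smo_iso h1 hb)

theorem nsqf_xb (h2 : F1 ι₂ κ ρ V ω μ₂) (hx : Smo ι₂ κ ρ V ω μ₂ x) (hb : Fd ι₁ ρ b) :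
    nsq ω (μ₂.prod μ₁) (fun w : G₂ × G₁ => x w.1 * b w.2) = nsq ω μ₂ x * nsq ω μ₁ b :=
  nsq_ab hb.continuous hx.toFd.continuous (smo_iso h2 hx)

/-- **rotation**, the order `G₂ × G₁` -/
theorem rot0 (h : Frm ρ V ω) (h1 : F1 ι₁ κ ρ V ω μ₁) (h2 : F1 ι₂ κ ρ V ω μ₂)
    (hb : Smo ι₁ κ ρ V ω μ₁ b) (hc : Smo ι₁ κ ρ V ω μ₁ c) (hz : Smo ι₂ κ ρ V ω μ₂ z)
    (hx : Smo ι₂ κ ρ V ω μ₂ x) (hy : Smo ι₂ κ ρ V ω μ₂ y) :
    ip ω (μ₂.prod μ₁) (fun w => z w.1 * c w.2) (fun w => b w.2 * (x w.1 * y w.1)) =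
      ip ω (μ₂.prod μ₁) (fun w => c w.2 * adjoint (x w.1 * y w.1))
        (fun w => adjoint (z w.1) * b w.2) := by
  have hR := h.reg
  have fx := fd_fst ι₁ hx.toFd
  have fy := fd_fst ι₁ hy.toFd
  have fz := fd_fst ι₁ hz.toFd
  have fb := fd_snd ι₂ hb.toFd
  have fc := fd_snd ι₂ hc.toFd
  have hz' : Smo ι₂ κ ρ V ω μ₂ (fun t => adjoint (z t)) := smo_adj h hz
  have hy' : Smo ι₂ κ ρ V ω μ₂ (fun t => adjoint (y t)) := smo_adj h hy
  -- first step: move `y`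
  have s1 : ip ω (μ₂.prod μ₁) (fun w => (z w.1 * c w.2) * adjoint (y w.1))
      (fun w => b w.2 * x w.1) =
      ip ω (μ₂.prod μ₁) (fun w => z w.1 * c w.2)
        (fun w => (b w.2 * x w.1) * adjoint (adjoint (y w.1))) :=
    ip_mul_right (c := fun w : G₂ × G₁ => adjoint (y w.1)) hR (fdf_xb hc.toFd hz.toFd)
      (fdf_bx hb.toFd hx.toFd) (fy.adj hR) (l2f_xb h2 hz hc.toFd hc.l2)
      (l2f_bx h1 hb hx.toFd hx.l2)
  -- second step: move `z` (pointwise)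
  have s2 : ip ω (μ₂.prod μ₁) (fun w => (z w.1 * c w.2) * adjoint (y w.1))
      (fun w => b w.2 * x w.1) =
      ip ω (μ₂.prod μ₁) (fun w => c w.2 * adjoint (y w.1))
        (fun w => (adjoint (z w.1) * b w.2) * x w.1) := by
    unfold ip
    refine integral_congr_ae (Eventually.of_forall fun w => ?_)
    simp only [mul_ap]
    rw [adjoint_inner_right]
  -- third step: move `x`
  have g1 : Fd (ι₂.prod ι₁) ρ (fun w : G₂ × G₁ => c w.2 * adjoint (y w.1)) :=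
    fdf_bx (x := fun t => adjoint (y t)) hc.toFd hy'.toFd
  have g2 : Fd (ι₂.prod ι₁) ρ (fun w : G₂ × G₁ => adjoint (z w.1) * b w.2) :=
    fdf_xb (x := fun t => adjoint (z t)) hb.toFd hz'.toFd
  have k1 : L2 ω (μ₂.prod μ₁) (fun w : G₂ × G₁ => c w.2 * adjoint (y w.1)) :=
    l2f_bx (x := fun t => adjoint (y t)) h1 hc hy'.toFd hy'.l2
  have k2 : L2 ω (μ₂.prod μ₁) (fun w : G₂ × G₁ => adjoint (z w.1) * b w.2) :=
    l2f_xb (x := fun t => adjoint (z t)) h2 hz' hb.toFd hb.l2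
  have s3 : ip ω (μ₂.prod μ₁) (fun w => (c w.2 * adjoint (y w.1)) * adjoint (x w.1))
      (fun w => adjoint (z w.1) * b w.2) =
      ip ω (μ₂.prod μ₁) (fun w => c w.2 * adjoint (y w.1))
        (fun w => (adjoint (z w.1) * b w.2) * adjoint (adjoint (x w.1))) :=
    ip_mul_right (c := fun w : G₂ × G₁ => adjoint (x w.1)) hR g1 g2 (fx.adj hR) k1 k2
  simp only [adjoint_adjoint] at s1 s3
  have e1 : (fun w : G₂ × G₁ => b w.2 * (x w.1 * y w.1)) = fun w => b w.2 * x w.1 * y w.1 := by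
    funext w; rw [mul_assoc]
  have e2 : (fun w : G₂ × G₁ => c w.2 * adjoint (x w.1 * y w.1)) =
      fun w => c w.2 * adjoint (y w.1) * adjoint (x w.1) := by
    funext w; rw [adj_mul, mul_assoc]
  rw [e1, e2, ← s1, s2, ← s3]

/-- **rotation** -/
theorem rot (h : Frm ρ V ω) (h1 : F1 ι₁ κ ρ V ω μ₁) (h2 : F1 ι₂ κ ρ V ω μ₂)
    (hb : Smo ι₁ κ ρ V ω μ₁ b) (hc : Smo ι₁ κ ρ V ω μ₁ c) (hz : Smo ι₂ κ ρ V ω μ₂ z)
    (hx : Smo ι₂ κ ρ V ω μ₂ x) (hy : Smo ι₂ κ ρ V ω μ₂ y) :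
    ip ω (μ₂.prod μ₁) (fun w => z w.1 * c w.2) (fun w => b w.2 * (x w.1 * y w.1)) =
      ip ω (μ₁.prod μ₂) (fun w => c w.1 * adjoint (x w.2 * y w.2))
        (fun w => adjoint (z w.2) * b w.1) := by
  rw [rot0 h h1 h2 hb hc hz hx hy]
  exact integral_prod_swap (μ := μ₁) (ν := μ₂)
    (fun w : G₁ × G₂ => ⟪(c w.1 * adjoint (x w.2 * y w.2)) ω, (adjoint (z w.2) * b w.1) ω⟫_ℂ)

/-- **non vanishing** -/
theorem form_ne [μ₁.IsOpenPosMeasure] [μ₂.IsOpenPosMeasure] [μ₂.IsMulRightInvariant]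
    (h : Frm ρ V ω) (h1 : F1 ι₁ κ ρ V ω μ₁) (h2 : F1 ι₂ κ ρ V ω μ₂)
    (hb : Smo ι₁ κ ρ V ω μ₁ b) (hb0 : b ≠ 0) (hx : Smo ι₂ κ ρ V ω μ₂ x) (hx0 : x ≠ 0)
    (h0 : ∀ v, ip ω (μ₂.prod μ₁) (fun w => (adjoint (x w.1) * x w.1) * b w.2)
      (fun w => b w.2 * (x (w.1 * v) * adjoint (x (w.1 * v)))) = 0) : False := by
  have hR := h.reg
  have fb := fd_snd ι₂ hb.toFd
  have fx := fd_fst ι₁ hx.toFd
  have hx' : Smo ι₂ κ ρ V ω μ₂ (fun t => adjoint (x t)) := smo_adj h hx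
  -- `x t * b u * x (t * v) = 0`
  have key : ∀ (v : G₂) (t : G₂) (u : G₁), x t * b u * x (t * v) = 0 := by
    intro v t u
    have hxv : Smo ι₂ κ ρ V ω μ₂ (fun t => x (t * v)) := smo_rt hx v
    have hxv' : Smo ι₂ κ ρ V ω μ₂ (fun t => adjoint (x (t * v))) := smo_adj h hxv
    have fxv := fd_fst ι₁ hxv.toFd
    have fxv' := fd_fst ι₁ hxv'.toFd
    -- the field and its vector
    have fF : Fd (ι₂.prod ι₁) ρ (fun w : G₂ × G₁ => (x w.1 * b w.2) * x (w.1 * v)) :=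
      (fx.mul fb).mul fxv
    have lF : L2 ω (μ₂.prod μ₁) (fun w : G₂ × G₁ => (x w.1 * b w.2) * x (w.1 * v)) :=
      L2.mul_right hR (fx.mul fb) fxv (l2f_xb h2 hx hb.toFd hb.l2)
    have s1 : ip ω (μ₂.prod μ₁) (fun w => (x w.1 * b w.2) * x (w.1 * v))
        (fun w => (x w.1 * b w.2) * x (w.1 * v)) =
        ip ω (μ₂.prod μ₁) (fun w => x w.1 * b w.2)
          (fun w => ((x w.1 * b w.2) * x (w.1 * v)) * adjoint (x (w.1 * v))) :=
      ip_mul_right hR (fx.mul fb) fF fxv (l2f_xb h2 hx hb.toFd hb.l2) lF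
    have s2 : ip ω (μ₂.prod μ₁) (fun w => x w.1 * b w.2)
          (fun w => ((x w.1 * b w.2) * x (w.1 * v)) * adjoint (x (w.1 * v))) =
        ip ω (μ₂.prod μ₁) (fun w => (adjoint (x w.1) * x w.1) * b w.2)
          (fun w => b w.2 * (x (w.1 * v) * adjoint (x (w.1 * v)))) := by
      unfold ip
      refine integral_congr_ae (Eventually.of_forall fun w => ?_)
      simp only [mul_ap]
      rw [adjoint_inner_left]
    rw [s2, h0 v, ip_self lF] at s1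
    have h3 : (nsq ω (μ₂.prod μ₁) (fun w : G₂ × G₁ => (x w.1 * b w.2) * x (w.1 * v))) = 0 := by
      have h4 : (nsq ω (μ₂.prod μ₁)
          (fun w : G₂ × G₁ => (x w.1 * b w.2) * x (w.1 * v))).toReal = 0 :=
        Complex.ofReal_injective (by simpa using s1)
      exact ((ENNReal.toReal_eq_zero_iff _).1 h4).resolve_right (nsq_lt_top lF).ne
    have h5 := field_eq_zero hR fF (zero_of_nsq fF h3)
    exact congrFun h5 (t, u)
  -- a vector which is not zero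
  apply hx0
  funext t₀
  refine ContinuousLinearMap.ext fun ζ => ?_
  refine h1.eq_zero hb (nsq_ne_zero hR hb.toFd hb0) fun u => ?_
  refine h2.eq_zero hx (nsq_ne_zero hR hx.toFd hx0) fun t => ?_
  have h6 := congrArg (fun T : K →L[ℂ] K => T ζ) (key (t⁻¹ * t₀) t u)
  simpa [mul_ap] using h6

/-- **the end**: `Θ b b = ‖b‖²` gives the commutation -/
theorem comm_of_form [μ₁.IsOpenPosMeasure] [μ₂.IsOpenPosMeasure]
    (h : Frm ρ V ω) (h1 : F1 ι₁ κ ρ V ω μ₁) (h2 : F1 ι₂ κ ρ V ω μ₂)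
    (hb : Smo ι₁ κ ρ V ω μ₁ b) (hx : Smo ι₂ κ ρ V ω μ₂ x)
    (h0 : ip ω (μ₂.prod μ₁) (fun w => x w.1 * b w.2) (fun w => b w.2 * x w.1) =
      ip ω μ₁ b b * ip ω μ₂ x x) (t : G₂) (u : G₁) : x t * b u = b u * x t := by
  have hR := h.reg
  have l1 := l2f_bx h1 hb hx.toFd hx.l2
  have l2 := l2f_xb h2 hx hb.toFd hb.l2
  have f1 := fdf_bx hb.toFd hx.toFd
  have f2 := fdf_xb hb.toFd hx.toFd
  rw [ip_self hb.l2, ip_self hx.l2] at h0
  have e := eq_of_cs (μ := μ₂.prod μ₁) (f := fun w : G₂ × G₁ => (x w.1 * b w.2) ω)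
    (g := fun w : G₂ × G₁ => (b w.2 * x w.1) ω)
    (f2.continuous_apply ω) (f1.continuous_apply ω) l2 l1
    (A := (nsq ω μ₁ b).toReal * (nsq ω μ₂ x).toReal)
    (by
      rw [integral_sq l2, nsqf_xb h2 hx hb.toFd, ENNReal.toReal_mul, mul_comm])
    (by
      rw [integral_sq l1, nsqf_bx h1 hb hx.toFd, ENNReal.toReal_mul])
    (by
      have h3 := congrArg Complex.re h0
      unfold ip at h3
      rw [h3]
      simp)
  have h4 := field_eq_zero hR (f2.sub f1) fun w => by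
    rw [sub_apply, sub_eq_zero]
    exact congrFun e w
  exact sub_eq_zero.1 (congrFun h4 (t, u))

end forms

end Vale.Agent.P092.H978
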