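import Vale.Agent.P092.H978.HalfC

/-!
P092 (helper978), Team C, block A-ASM: the joint between the engine and the hat construction
(helper242's #5485 (4)): limit of the cones, escape of the finite sets, mass of the near-wall part.
-/

set_option linter.all false

open scoped InnerProductSpace ENNReal
open Filter Topology ContinuousLinearMap MeasureTheory TopologicalSpace

namespace Vale.Agent.P092.H978.JointC

open Vale.Agent.P092.H859.CL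
open Vale.Agent.P092.H553 (ind ind_nonneg ind_le_one abs_ind_le ind_pos ind_neg)
open Vale.Agent.P092.RC
open Vale.Agent.P092.H978.LimC
open Vale.Agent.P092.H978.HalfC
open Vale.Agent.P092.SR Vale.Agent.P092.H160
open Vale.Agent.P092.H432 (lx ep mp ARep)

section abs

variable {Γ D K : Type} [Group Γ] [Group D] [NormedAddCommGroup K]
  [InnerProductSpace ℂ K] [CompleteSpace K] {m : Set Γ → (K →L[ℂ] K)} {R : D → (K →L[ℂ] K)}

/-- Mass of the complement of a set of small mass. -/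
theorem mass_compl (hm : Prj m) {S T : Set Γ} (hST : Tᶜ ⊆ S) {ξ : K} (hξ : ‖ξ‖ = 1)
    (h : ‖m S ξ‖ ≤ 1 / 2) : 1 / 2 ≤ ‖m T ξ‖ ^ 2 := by
  have h1 := hm.norm_sq_add T ξ
  have h2 := (hm.mono hST ξ).trans h
  have h3 : ‖m Tᶜ ξ‖ ^ 2 ≤ (1 / 2) ^ 2 := pow_le_pow_left₀ (norm_nonneg _) h2 2
  rw [hξ] at h1
  nlinarith

end abs

section con

variable {k : Type} [NontriviallyNormedField k] {m : ℕ} [LocallyCompactSpace (GG k m)]
  [SecondCountableTopology (GG k m)] [MeasurableSpace (GG k m)] [BorelSpace (GG k m)]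
  {Γ : Subgroup (GG k m)} [DiscreteTopology Γ] [Countable Γ] [MeasurableSpace (GG k m ⧸ Γ)]
  [BorelSpace (GG k m ⧸ Γ)] {ν : Measure (GG k m ⧸ Γ)} [IsProbabilityMeasure ν]
  (hν : ∀ g : GG k m, ν.map (fun x => g • x) = ν)
  {Λ : Type} [Group Λ] {α : Γ →* (Ell2 Λ →L[ℂ] Ell2 Λ)} (hα : Frame α)

/-- the multiplication operators of the picture, for sets -/
noncomputable abbrev mS (S : Set Γ) : KC hν Λ →L[ℂ] KC hν Λ :=
  cst hν (tens (AF hα (ind fun g => g ∈ S)) 1)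

theorem st_mpC (S : Set Γ) : st (mpC hν hα) S = mS hν hα S := mpC_eq hν hα (abs_ind_le _)

theorem norm_OmC : ‖OmC hν Λ‖ = 1 := by
  rw [OmC, Lp.norm_const']
  · rw [norm_dl]
    simp
  · norm_num
  · norm_num

variable {Bd : Set (KR hν)} {ms : GG k m → Set Γ → ℝ} {A : Subgroup (GG k m)} {G1' G2' : Γ → ℝ}

/-- escape of the finite sets -/
theorem esc_C {b : GG k m}
    (hs : SysF (mpR hν) (H790.Ri (H85.cdat ν hν) (VR hα)) Bd ms A G1' G2')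
    (he : Esc (st (mpR hν)) (H790.Ri (H85.cdat ν hν) (VR hα)) Bd A (pw b)) (γ : Γ)
    (ξ : KC hν Λ) :
    Tendsto (fun n : ℕ => mS hν hα {γ} (piC hν hα (b ^ n) ξ)) atTop (𝓝 0) := by
  obtain ⟨η, rfl⟩ := (JC hν hα).surjective ξ
  have h1 := tendsto_pw.mp (Esc.esc' hs.sys he γ η)
  rw [tendsto_zero_iff_norm_tendsto_zero]
  refine h1.congr fun n => ?_
  rw [← st_mpC, ← cj_JC_pi, cj_ap]
  change _ = ‖cj (JC hν hα) (st (mpR hν) {γ}) _‖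
  rw [cj_ap, LinearIsometryEquiv.norm_map]

variable {Y : Type} [TopologicalSpace Y] [CompactSpace Y] [sa : SMul Γ Y] {G1 G2 : Γ → ℝ}
  {bp : Γ → Y} {b : GG k m} {β : C(Y, ℂ) →⋆ₐ[ℂ] (KR hν →L[ℂ] KR hν)}

/-- limit of the cones -/
theorem lim_C (hf : Fn (mpR hν)) (h : EngOut (mpC hν hα) (fun g => piC hν hα g)
      (fun γ => lamC hν (RR₁ α) γ) (XC hν Λ ∪ Set.range (lamC hν (RR₂ α))) b G1 G2 bp
      (bj (JC hν hα) β)) (C : Clopens Y) (ξ : KC hν Λ) :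
    Tendsto (fun n : ℕ => piC hν hα (b ^ n)⁻¹
      (mS hν hα (cn G1 G2 bp (C : Set Y)) (piC hν hα (b ^ n) ξ))) atTop
      (𝓝 (bj (JC hν hα) β (ci C) ξ)) := by
  refine (app_eng h (fn_mpC hν hα hf) C ξ).congr fun n => ?_
  rw [st_mpC]

/-- mass of the near-wall part -/
theorem mass_C (hf : Fn (mpR hν)) (h : EngOut (mpC hν hα) (fun g => piC hν hα g)
      (fun γ => lamC hν (RR₁ α) γ) (XC hν Λ ∪ Set.range (lamC hν (RR₂ α))) b G1 G2 bp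
      (bj (JC hν hα) β)) :
    ∃ r : ℝ, ∀ᶠ n : ℕ in atTop,
      1 / 2 ≤ ‖mS hν hα {γ | G2 γ ≤ r} (piC hν hα (b ^ n) (OmC hν Λ))‖ ^ 2 := by
  obtain ⟨r, hr⟩ := h.tail (OmC hν Λ) (1 / 2) (by norm_num)
  refine ⟨r, hr.mono fun n hn => ?_⟩
  have hn1 : ‖piC hν hα (b ^ n) (OmC hν Λ)‖ = 1 := by
    rw [H34.Ind.norm_map_of_adj (fun v => H34.Ind.adjoint_pi (H85.cdat ν hν) (H839.adj_VV hα) v),
      norm_OmC]
  have hST : ({γ | G2 γ ≤ r} : Set Γ)ᶜ ⊆ {γ | r < G2 γ} := by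
    intro γ hγ
    have h3 : ¬ G2 γ ≤ r := hγ
    exact not_le.mp h3
  have h2 := mass_compl (fn_mpC hν hα hf).prj hST hn1 hn
  rw [st_mpC] at h2
  exact h2

end con

section pt

variable {k : Type} [NontriviallyNormedField k] [LocallyCompactSpace (GG k 2)]
  [SecondCountableTopology (GG k 2)] [MeasurableSpace (GG k 2)] [BorelSpace (GG k 2)]
  {Γ : Subgroup (GG k 2)} [DiscreteTopology Γ] [Countable Γ] [MeasurableSpace (GG k 2 ⧸ Γ)]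
  [BorelSpace (GG k 2 ⧸ Γ)] {ν : Measure (GG k 2 ⧸ Γ)} [IsProbabilityMeasure ν]
  (hν : ∀ g : GG k 2, ν.map (fun x => g • x) = ν)
  {Λ : Type} [Group Λ] {α : Γ →* (Ell2 Λ →L[ℂ] Ell2 Λ)} (hα : Frame α)

/-- Everything which the engine delivers for the assembly of `RC.Half`. -/
structure Joint [ContinuousConstSMul (GG k 2) (YY k 2)] (q : Γ →* GG k 2) (b : GG k 2)
    (G1 G2 : Γ → ℝ) (bp : Γ → YY k 2)
    (E : Clopens (YY k 2) → (KC hν Λ →L[ℂ] KC hν Λ)) : Prop where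
  lim : Lim (piC hν hα) (lamC hν (RR₁ α)) (XC hν Λ ∪ Set.range (lamC hν (RR₂ α))) q y0 E
  app : ∀ C : Clopens (YY k 2), ∃ A : ℕ → (Ell2 Λ →L[ℂ] Ell2 Λ),
    (∃ B : ℝ, ∀ n, ‖tens (A n) (1 : Ell2 Λ →L[ℂ] Ell2 Λ)‖ ≤ B) ∧
    ∀ ξ, Tendsto (fun n => piC hν hα (b ^ n)⁻¹ (cst hν (tens (A n) 1) (piC hν hα (b ^ n) ξ)))
      atTop (𝓝 (E C ξ))
  hlim : ∀ (C : Clopens (YY k 2)) ξ, Tendsto (fun n : ℕ => piC hν hα (b ^ n)⁻¹
    (mS hν hα (cn G1 G2 bp (C : Set (YY k 2))) (piC hν hα (b ^ n) ξ))) atTop (𝓝 (E C ξ))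
  hesc : ∀ (γ : Γ) ξ, Tendsto (fun n : ℕ => mS hν hα {γ} (piC hν hα (b ^ n) ξ)) atTop (𝓝 0)
  mass : ∃ r : ℝ, ∀ᶠ n : ℕ in atTop,
    1 / 2 ≤ ‖mS hν hα {γ | G2 γ ≤ r} (piC hν hα (b ^ n) (OmC hν Λ))‖ ^ 2

variable {Bd : Set (KR hν)} {ms : GG k 2 → Set Γ → ℝ} {A : Subgroup (GG k 2)}
  {G1' G2' : Γ → ℝ} [CompactSpace (YY k 2)] [sa : SMul Γ (YY k 2)] {G1 G2 : Γ → ℝ}
  {bp : Γ → YY k 2} {β : C(YY k 2, ℂ) →⋆ₐ[ℂ] (KR hν →L[ℂ] KR hν)} {w : kˣ}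

/-- **The joint.** -/
theorem joint_of [ContinuousConstSMul (GG k 2) (YY k 2)] (hw : ‖(w : k)‖ < 1)
    {q : Γ →* GG k 2} (hq : ∀ (γ : Γ) (y : YY k 2), sa.smul γ y = q γ • y)
    (hs : SysF (mpR hν) (H790.Ri (H85.cdat ν hν) (VR hα)) Bd ms A G1' G2')
    (he : Esc (st (mpR hν)) (H790.Ri (H85.cdat ν hν) (VR hα)) Bd A (pw (SD.bw w)⁻¹))
    (h : EngOut (mpR hν) (H790.Ri (H85.cdat ν hν) (VR hα))
      (fun γ : Γ => H790.lxt (H85.cdat ν hν).μ (γ, (1 : Γ)))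
      (H776.Leg1.WL (H85.cdat ν hν) Γ Γ Unit) (SD.bw w)⁻¹ G1 G2 bp β) :
    Joint hν hα q (SD.bw w)⁻¹ G1 G2 bp fun C => bj (JC hν hα) β (ci C) where
  lim := (half_lim_app hν hα hw hs.fn hq h).1
  app := (half_lim_app hν hα hw hs.fn hq h).2
  hlim := fun C ξ => lim_C hν hα hs.fn (engC hν hα h) C ξ
  hesc := fun γ ξ => esc_C hν hα hs he γ ξ
  mass := mass_C hν hα hs.fn (engC hν hα h)

end pt

end Vale.Agent.P092.H978.JointC
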