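import Mathlib.Analysis.CStarAlgebra.ContinuousMap
import Mathlib.Analysis.CStarAlgebra.Spectrum
import Mathlib.Analysis.InnerProductSpace.Adjoint
import Mathlib.Analysis.InnerProductSpace.StarOrder
import Mathlib.Topology.UrysohnsLemma
import Mathlib.Topology.Algebra.Group.Basic
import Mathlib.Topology.ContinuousMap.ZeroAtInfty
import Mathlib.Tactic

/-!
The support of a star representation `E` of `C₀(X)` and step (6), (7) of Theorem C (#3269).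
-/

open scoped ZeroAtInfty InnerProductSpace
open Filter Topology

namespace Vale.Agent.P092.H978

section ideal

variable {X : Type*} [TopologicalSpace X]
variable {A : Type*} [NonUnitalCStarAlgebra A]

/-- the support of `E` -/
def supp (E : C₀(X, ℂ) →⋆ₙₐ[ℂ] A) : Set X := {x | ∀ f, E f = 0 → f x = 0}

theorem isClosed_supp (E : C₀(X, ℂ) →⋆ₙₐ[ℂ] A) : IsClosed (supp E) := by
  have : supp E = ⋂ f : {f : C₀(X, ℂ) // E f = 0}, {x | f.1 x = 0} := by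
    ext x
    simp [supp]
  rw [this]
  refine isClosed_iInter fun f => ?_
  exact isClosed_eq (map_continuous f.1) continuous_const

/-- multiplication of an element of `C₀` by a bounded continuous factor -/
noncomputable def bmul (f : C₀(X, ℂ)) (u : X → ℂ) (hu : Continuous u) (C : ℝ)
    (hC : ∀ x, ‖u x‖ ≤ C) : C₀(X, ℂ) where
  toFun x := f x * u x
  continuous_toFun := (map_continuous f).mul hu
  zero_at_infty' := by
    have h0 : Tendsto (fun x => ‖f x‖ * C) (cocompact X) (𝓝 0) := by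
      have := (f.zero_at_infty').norm.mul_const C
      simpa using this
    refine squeeze_zero_norm (fun x => ?_) h0
    rw [norm_mul]
    exact mul_le_mul_of_nonneg_left (hC x) (norm_nonneg _)

/-- evaluation as an additive map -/
noncomputable def evl (x : X) : C₀(X, ℂ) →+ ℂ where
  toFun f := f x
  map_zero' := rfl
  map_add' _ _ := rfl

@[simp] theorem bmul_apply (f : C₀(X, ℂ)) (u : X → ℂ) (hu : Continuous u) (C : ℝ)
    (hC : ∀ x, ‖u x‖ ≤ C) (x : X) : bmul f u hu C hC x = f x * u x := rfl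

/-- the soft threshold of `f` -/
noncomputable def soft (f : C₀(X, ℂ)) (ε : ℝ) (hε : 0 < ε) : C₀(X, ℂ) :=
  bmul f (fun x => ((1 - ε / max ‖f x‖ ε : ℝ) : ℂ))
    (by
      refine Complex.continuous_ofReal.comp ?_
      refine continuous_const.sub (continuous_const.div ?_ ?_)
      · exact ((map_continuous f).norm).max continuous_const
      · intro x
        exact (lt_of_lt_of_le hε (le_max_right _ _)).ne')
    1 (by
      intro x
      rw [Complex.norm_real, Real.norm_eq_abs, abs_le]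
      have h1 : 0 < max ‖f x‖ ε := lt_of_lt_of_le hε (le_max_right _ _)
      have h2 : ε / max ‖f x‖ ε ≤ 1 := (div_le_one h1).2 (le_max_right _ _)
      have h3 : 0 ≤ ε / max ‖f x‖ ε := by positivity
      constructor <;> linarith)

theorem soft_apply (f : C₀(X, ℂ)) (ε : ℝ) (hε : 0 < ε) (x : X) :
    soft f ε hε x = f x * ((1 - ε / max ‖f x‖ ε : ℝ) : ℂ) := rfl

theorem soft_zero (f : C₀(X, ℂ)) (ε : ℝ) (hε : 0 < ε) (x : X) (hx : ‖f x‖ ≤ ε) :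
    soft f ε hε x = 0 := by
  rw [soft_apply, max_eq_right hx, div_self hε.ne']
  simp

theorem norm_sub_soft_le (f : C₀(X, ℂ)) (ε : ℝ) (hε : 0 < ε) : ‖f - soft f ε hε‖ ≤ ε := by
  rw [← ZeroAtInftyContinuousMap.norm_toBCF_eq_norm]
  refine (BoundedContinuousFunction.norm_le hε.le).2 fun x => ?_
  change ‖f x - soft f ε hε x‖ ≤ ε
  rw [soft_apply]
  have h1 : 0 < max ‖f x‖ ε := lt_of_lt_of_le hε (le_max_right _ _)
  have : f x - f x * ((1 - ε / max ‖f x‖ ε : ℝ) : ℂ) = f x * ((ε / max ‖f x‖ ε : ℝ) : ℂ) := by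
    push_cast
    ring
  rw [this, norm_mul, Complex.norm_real, Real.norm_eq_abs, abs_of_nonneg (by positivity)]
  rw [← mul_div_assoc, div_le_iff₀ h1, mul_comm]
  exact mul_le_mul_of_nonneg_left (le_max_left _ _) hε.le

/-- **the ideal of `C₀(X)` killed by `E`**: every function vanishing on the support of `E` is
killed by `E`. -/
theorem eq_zero_of_supp (E : C₀(X, ℂ) →⋆ₙₐ[ℂ] A) (f : C₀(X, ℂ))
    (hf : ∀ x ∈ supp E, f x = 0) : E f = 0 := by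
  -- it is enough to kill the soft thresholds
  suffices h : ∀ ε : ℝ, ∀ hε : 0 < ε, E (soft f ε hε) = 0 by
    by_contra hne
    have hpos : 0 < ‖E f‖ := norm_pos_iff.2 hne
    have h1 := NonUnitalStarAlgHom.norm_apply_le E (f - soft f (‖E f‖ / 2) (by positivity))
    rw [map_sub, h _ (by positivity), sub_zero] at h1
    have h2 := norm_sub_soft_le f (‖E f‖ / 2) (by positivity)
    linarith
  intro ε hε
  -- the compact set where `f` is large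
  have hK : IsCompact {x | ε ≤ ‖f x‖} := by
    have h0 : ∀ᶠ x in cocompact X, ‖f x‖ < ε := by
      have := (f.zero_at_infty').norm
      rw [norm_zero] at this
      exact this.eventually (gt_mem_nhds hε)
    obtain ⟨K, hK, hKs⟩ := (mem_cocompact.1 h0)
    refine hK.of_isClosed_subset (isClosed_le continuous_const (map_continuous f).norm) ?_
    intro x hx
    by_contra hxK
    have := hKs hxK
    simp only [Set.mem_ofPred_eq] at this hx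
    linarith
  -- a function in the kernel which is not zero at a given point of `K`
  have hcov : ∀ x ∈ {x | ε ≤ ‖f x‖}, ∃ g : C₀(X, ℂ), E g = 0 ∧ g x ≠ 0 := by
    intro x hx
    by_contra hcon
    push Not at hcon
    have hxs : x ∈ supp E := fun g hg => hcon g hg
    have h2 := hf x hxs
    simp only [Set.mem_ofPred_eq, h2, norm_zero] at hx
    linarith
  choose! g hg0 hgne using hcov
  obtain ⟨t, htc⟩ := hK.elim_nhds_subcover' (fun x _ => {y | g x y ≠ 0}) (fun x hx =>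
    (isOpen_ne_fun (map_continuous (g x)) continuous_const).mem_nhds (hgne x hx))
  -- the sum of squares
  set F : C₀(X, ℂ) := ∑ x ∈ t, star (g x.1) * g x.1 with hF
  have hEF : E F = 0 := by
    rw [hF, map_sum]
    refine Finset.sum_eq_zero fun x _ => ?_
    rw [map_mul, hg0 x.1 x.2, mul_zero]
  have hFx : ∀ y, F y = ((∑ x ∈ t, ‖g x.1 y‖ ^ 2 : ℝ) : ℂ) := by
    intro y
    have h1 : F y = ∑ x ∈ t, (star (g x.1) * g x.1 : C₀(X, ℂ)) y := by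
      exact map_sum (evl y) (fun x : {x | ε ≤ ‖f x‖} => (star (g x.1) * g x.1 : C₀(X, ℂ))) t
    rw [h1]
    push_cast
    refine Finset.sum_congr rfl fun x _ => ?_
    rw [ZeroAtInftyContinuousMap.mul_apply, ZeroAtInftyContinuousMap.star_apply]
    exact Complex.conj_mul' _
  -- lower bound on `K`
  set G : X → ℝ := fun y => ∑ x ∈ t, ‖g x.1 y‖ ^ 2 with hG
  have hGc : Continuous G := by
    rw [hG]
    exact continuous_finsetSum _ fun x _ => ((map_continuous (g x.1)).norm).pow 2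
  have hGpos : ∀ y ∈ {x | ε ≤ ‖f x‖}, 0 < G y := by
    intro y hy
    obtain ⟨x, hx, hxy⟩ := Set.mem_iUnion₂.1 (htc hy)
    refine Finset.sum_pos' (fun _ _ => by positivity) ⟨x, hx, ?_⟩
    have : g x.1 y ≠ 0 := hxy
    positivity
  obtain ⟨δ, hδ, hδG⟩ : ∃ δ : ℝ, 0 < δ ∧ ∀ y ∈ {x | ε ≤ ‖f x‖}, δ ≤ G y := by
    rcases Set.eq_empty_or_nonempty {x | ε ≤ ‖f x‖} with h | h
    · exact ⟨1, one_pos, by rw [h]; simp⟩
    · obtain ⟨y, hy, hmin⟩ := hK.exists_isMinOn h hGc.continuousOn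
      exact ⟨G y, hGpos y hy, fun z hz => hmin hz⟩
  -- the quotient
  set q : C₀(X, ℂ) := bmul (soft f ε hε) (fun y => (((max (G y) δ)⁻¹ : ℝ) : ℂ))
    (by
      refine Complex.continuous_ofReal.comp (Continuous.inv₀ (hGc.max continuous_const) ?_)
      intro y
      exact (lt_of_lt_of_le hδ (le_max_right _ _)).ne')
    δ⁻¹ (by
      intro y
      rw [Complex.norm_real, Real.norm_eq_abs, abs_of_nonneg (by positivity)]
      exact inv_anti₀ hδ (le_max_right _ _)) with hq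
  have hqF : soft f ε hε = q * F := by
    ext y
    rw [ZeroAtInftyContinuousMap.mul_apply, hFx, hq, bmul_apply]
    by_cases hy : ε ≤ ‖f y‖
    · have h1 : max (G y) δ = G y := max_eq_left (hδG y hy)
      have h2 : G y ≠ 0 := (hGpos y hy).ne'
      have h3 : ((G y : ℝ) : ℂ) ≠ 0 := by exact_mod_cast h2
      rw [h1]
      change _ = soft f ε hε y * _ * ((G y : ℝ) : ℂ)
      push_cast
      rw [mul_assoc, inv_mul_cancel₀ h3, mul_one]
    · rw [soft_zero f ε hε y (not_le.1 hy).le]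
      simp
  rw [hqF, map_mul, hEF, mul_zero]

end ideal

section grp

variable {H : Type*} [Group H] [TopologicalSpace H] [IsTopologicalGroup H]

/-- conjugation as a homeomorphism: `t ↦ s⁻¹ * t * s` -/
def cjH (s : H) : H ≃ₜ H := (Homeomorph.mulLeft s⁻¹).trans (Homeomorph.mulRight s)

@[simp] theorem cjH_apply (s t : H) : cjH s t = s⁻¹ * t * s := rfl

/-- `cjF s f = f (s⁻¹ · s)` -/
noncomputable def cjF (s : H) (f : C₀(H, ℂ)) : C₀(H, ℂ) where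
  toFun t := f (s⁻¹ * t * s)
  continuous_toFun := (map_continuous f).comp (cjH s).continuous
  zero_at_infty' := (f.zero_at_infty').comp (cjH s).isClosedEmbedding.tendsto_cocompact

@[simp] theorem cjF_apply (s : H) (f : C₀(H, ℂ)) (t : H) : cjF s f t = f (s⁻¹ * t * s) := rfl

variable {L₁ : Type*} [NormedAddCommGroup L₁] [InnerProductSpace ℂ L₁] [CompleteSpace L₁]
variable {L₂ : Type*} [NormedAddCommGroup L₂] [InnerProductSpace ℂ L₂] [CompleteSpace L₂]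

/-- covariance of `E` under `α` -/
def Cov {L : Type*} [NormedAddCommGroup L] [InnerProductSpace ℂ L] [CompleteSpace L]
    (α : H →* (L →L[ℂ] L)) (E : C₀(H, ℂ) →⋆ₙₐ[ℂ] (L →L[ℂ] L)) : Prop :=
  ∀ s f, α s * E f * α s⁻¹ = E (cjF s f)

/-- the exchange formula between `E₁` on `L₁` and `E₂` on `L₂`:
`⟪z, E₂ (t ↦ ⟪c, α₁ t b⟫) x⟫ = ⟪c, E₁ (t ↦ ⟪z, α₂ t⁻¹ x⟫) b⟫`. -/
def Exch (α₁ : H →* (L₁ →L[ℂ] L₁)) (α₂ : H →* (L₂ →L[ℂ] L₂))
    (E₁ : C₀(H, ℂ) →⋆ₙₐ[ℂ] (L₁ →L[ℂ] L₁)) (E₂ : C₀(H, ℂ) →⋆ₙₐ[ℂ] (L₂ →L[ℂ] L₂)) : Prop :=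
  ∀ (b c : L₁) (x z : L₂), ∃ φ ψ : C₀(H, ℂ), (∀ t, φ t = ⟪c, α₁ t b⟫_ℂ) ∧
    (∀ t, ψ t = ⟪z, α₂ t⁻¹ x⟫_ℂ) ∧ ⟪z, E₂ φ x⟫_ℂ = ⟪c, E₁ ψ b⟫_ℂ

theorem supp_conj {L : Type*} [NormedAddCommGroup L] [InnerProductSpace ℂ L] [CompleteSpace L]
    {α : H →* (L →L[ℂ] L)} {E : C₀(H, ℂ) →⋆ₙₐ[ℂ] (L →L[ℂ] L)} (h : Cov α E)
    (s : H) {t : H} (ht : t ∈ supp E) : s * t * s⁻¹ ∈ supp E := by
  intro f hf
  have h1 : E (cjF s⁻¹ f) = 0 := by
    rw [← h s⁻¹ f, hf, mul_zero, zero_mul]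
  have h2 := ht _ h1
  rw [cjF_apply, inv_inv] at h2
  exact h2

omit [IsTopologicalGroup H] in
theorem Exch.comm_of_mem_supp {α₁ : H →* (L₁ →L[ℂ] L₁)} {α₂ : H →* (L₂ →L[ℂ] L₂)}
    {E₁ : C₀(H, ℂ) →⋆ₙₐ[ℂ] (L₁ →L[ℂ] L₁)} {E₂ : C₀(H, ℂ) →⋆ₙₐ[ℂ] (L₂ →L[ℂ] L₂)}
    (h : Exch α₁ α₂ E₁ E₂) {t : H} (ht : t ∈ supp E₁) (g : C₀(H, ℂ)) :
    α₂ t⁻¹ * E₂ g = E₂ g * α₂ t⁻¹ := by
  refine ContinuousLinearMap.ext fun x => ?_
  refine ext_inner_left ℂ fun z => ?_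
  obtain ⟨φ₀, ψ₁, -, hψ₁, -⟩ := h 0 0 (E₂ g x) z
  obtain ⟨φ₀', ψ₂, -, hψ₂, -⟩ := h 0 0 x (E₂ (star g) z)
  have hker : E₁ (ψ₁ - ψ₂) = 0 := by
    refine ContinuousLinearMap.ext fun b => ?_
    refine ext_inner_left ℂ fun c => ?_
    obtain ⟨φ, ψ₁', hφ, hψ₁', e1⟩ := h b c (E₂ g x) z
    obtain ⟨φ', ψ₂', hφ', hψ₂', e2⟩ := h b c x (E₂ (star g) z)
    have a1 : ψ₁' = ψ₁ := by ext s; rw [hψ₁, hψ₁']
    have a2 : ψ₂' = ψ₂ := by ext s; rw [hψ₂, hψ₂']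
    have a3 : φ' = φ := by ext s; rw [hφ, hφ']
    rw [a1] at e1
    rw [a2, a3] at e2
    have e3 : ⟪z, E₂ φ (E₂ g x)⟫_ℂ = ⟪E₂ (star g) z, E₂ φ x⟫_ℂ := by
      rw [map_star, ContinuousLinearMap.star_eq_adjoint, ContinuousLinearMap.adjoint_inner_left,
        ← mul_apply_eq_comp, ← mul_apply_eq_comp, ← map_mul, ← map_mul,
        mul_comm]
    rw [map_sub, sub_apply, inner_sub_right, ← e1, ← e2, e3, sub_self]
    simp
  have h0 := ht _ hker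
  change ψ₁ t - ψ₂ t = 0 at h0
  rw [hψ₁, hψ₂, sub_eq_zero] at h0
  rw [mul_apply_eq_comp, mul_apply_eq_comp, h0, map_star,
    ContinuousLinearMap.star_eq_adjoint, ContinuousLinearMap.adjoint_inner_left]

/-- functions in `C₀` separate points -/
theorem exists_sep {X : Type*} [TopologicalSpace X] [T2Space X] [LocallyCompactSpace X]
    {x y : X} (h : x ≠ y) : ∃ f : C₀(X, ℂ), f x = 1 ∧ f y = 0 := by
  obtain ⟨f, hf1, hf0, hfc, -⟩ := exists_continuous_one_zero_of_isCompact (isCompact_singleton (x := x))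
    (isClosed_singleton (x := y)) (by simpa using h)
  refine ⟨⟨⟨fun t => ((f t : ℝ) : ℂ), Complex.continuous_ofReal.comp f.continuous⟩, ?_⟩, ?_, ?_⟩
  · have h1 : HasCompactSupport (fun t => ((f t : ℝ) : ℂ)) :=
      hfc.comp_left (g := fun r : ℝ => (r : ℂ)) (by simp)
    exact h1.is_zero_at_infty
  · change ((f x : ℝ) : ℂ) = 1
    rw [hf1 (Set.mem_singleton x)]
    simp
  · change ((f y : ℝ) : ℂ) = 0
    rw [hf0 (Set.mem_singleton y)]
    simp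

variable [T2Space H] [LocallyCompactSpace H]

/-- **the supports of `E₁` and `E₂` commute** -/
theorem Exch.supp_comm {α₁ : H →* (L₁ →L[ℂ] L₁)} {α₂ : H →* (L₂ →L[ℂ] L₂)}
    {E₁ : C₀(H, ℂ) →⋆ₙₐ[ℂ] (L₁ →L[ℂ] L₁)} {E₂ : C₀(H, ℂ) →⋆ₙₐ[ℂ] (L₂ →L[ℂ] L₂)}
    (h : Exch α₁ α₂ E₁ E₂) (h2 : Cov α₂ E₂) {s t : H} (hs : s ∈ supp E₂) (ht : t ∈ supp E₁) :
    s * t = t * s := by
  have key : t⁻¹ * s * t = s := by
    by_contra hne
    obtain ⟨f, hf1, hf0⟩ := exists_sep hne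
    have e1 : E₂ (cjF t f) = E₂ f := by
      rw [← h2 t f]
      have e2 := h.comm_of_mem_supp ht f
      calc α₂ t * E₂ f * α₂ t⁻¹ = α₂ t * (E₂ f * α₂ t⁻¹) := mul_assoc _ _ _
        _ = α₂ t * (α₂ t⁻¹ * E₂ f) := by rw [e2]
        _ = (α₂ t * α₂ t⁻¹) * E₂ f := (mul_assoc _ _ _).symm
        _ = E₂ f := by rw [← map_mul, mul_inv_cancel, map_one, one_mul]
    have e3 : E₂ (cjF t f - f) = 0 := by rw [map_sub, e1, sub_self]
    have e4 := hs _ e3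
    change cjF t f s - f s = 0 at e4
    rw [cjF_apply, hf1, hf0, sub_zero] at e4
    exact one_ne_zero e4
  calc s * t = t * (t⁻¹ * s * t) := by group
    _ = t * s := by rw [key]

omit [IsTopologicalGroup H] [T2Space H] [LocallyCompactSpace H] in
/-- a star representation supported at `1` -/
theorem supp_one {A : Type*} [NonUnitalCStarAlgebra A] (E : C₀(H, ℂ) →⋆ₙₐ[ℂ] A)
    (h : supp E ⊆ {1}) {u : C₀(H, ℂ)} (hu : u 1 = 1) (f : C₀(H, ℂ)) : E f = f 1 • E u := by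
  have h1 : E (f - f 1 • u) = 0 := by
    refine eq_zero_of_supp E _ fun x hx => ?_
    have : x = 1 := h hx
    subst this
    change f 1 - f 1 * u 1 = 0
    rw [hu, mul_one, sub_self]
  rw [map_sub, map_smul, sub_eq_zero] at h1
  exact h1

omit [T2Space H] in
theorem exists_unit_at : ∃ u : C₀(H, ℂ), u 1 = 1 := by
  obtain ⟨f, hf1, -, hfc, -⟩ := exists_continuous_one_zero_of_isCompact
    (isCompact_singleton (x := (1 : H))) isClosed_empty (by simp)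
  refine ⟨⟨⟨fun t => ((f t : ℝ) : ℂ), Complex.continuous_ofReal.comp f.continuous⟩, ?_⟩, ?_⟩
  · have h1 : HasCompactSupport (fun t => ((f t : ℝ) : ℂ)) :=
      hfc.comp_left (g := fun r : ℝ => (r : ℂ)) (by simp)
    exact h1.is_zero_at_infty
  · change ((f 1 : ℝ) : ℂ) = 1
    rw [hf1 (Set.mem_singleton 1)]
    simp

omit [Group H] [IsTopologicalGroup H] [T2Space H] [LocallyCompactSpace H] in
theorem exists_mem_supp {A : Type*} [NonUnitalCStarAlgebra A] (E : C₀(H, ℂ) →⋆ₙₐ[ℂ] A)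
    {f : C₀(H, ℂ)} (hf : E f ≠ 0) : ∃ t, t ∈ supp E := by
  by_contra hcon
  push Not at hcon
  exact hf (eq_zero_of_supp E f fun x hx => absurd hx (hcon x))

/-- an idempotent proportional to an invertible operator is `1` -/
theorem idem_eq_one {L : Type*} [NormedAddCommGroup L] [InnerProductSpace ℂ L]
    {p v w : L →L[ℂ] L} (hp : p * p = p) (hv : w * v = 1) {κ : ℂ} (h : v = κ • p) : p = 1 := by
  have h1 : v * p = v := by rw [h, smul_mul_assoc, hp]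
  calc p = (w * v) * p := by rw [hv, one_mul]
    _ = w * (v * p) := mul_assoc _ _ _
    _ = 1 := by rw [h1, hv]

theorem inner_proportional {L : Type*} [NormedAddCommGroup L] [InnerProductSpace ℂ L]
    {p v : L →L[ℂ] L} {x₀ z₀ : L} (h0 : ⟪z₀, p x₀⟫_ℂ ≠ 0)
    (h : ∀ x z, ⟪z₀, p x₀⟫_ℂ * ⟪z, v x⟫_ℂ = ⟪z, p x⟫_ℂ * ⟪z₀, v x₀⟫_ℂ) :
    v = (⟪z₀, v x₀⟫_ℂ / ⟪z₀, p x₀⟫_ℂ) • p := by
  refine ContinuousLinearMap.ext fun x => ?_
  refine ext_inner_left ℂ fun z => ?_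
  rw [smul_apply, inner_smul_right]
  field_simp
  rw [mul_comm ⟪z, v x⟫_ℂ, h x z, mul_comm]

section concl

variable {α₁ : H →* (L₁ →L[ℂ] L₁)} {α₂ : H →* (L₂ →L[ℂ] L₂)}
  {E₁ : C₀(H, ℂ) →⋆ₙₐ[ℂ] (L₁ →L[ℂ] L₁)} {E₂ : C₀(H, ℂ) →⋆ₙₐ[ℂ] (L₂ →L[ℂ] L₂)}

omit [T2Space H] in
/-- the case `supp E₂ ⊆ {1}` -/
theorem Exch.case_two (h : Exch α₁ α₂ E₁ E₂) (hs : supp E₂ ⊆ {1})
    (hne : ∃ (φ : C₀(H, ℂ)) (b c : L₁) (x z : L₂), (∀ t, φ t = ⟪c, α₁ t b⟫_ℂ) ∧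
      ⟪z, E₂ φ x⟫_ℂ ≠ 0) (f : C₀(H, ℂ)) : E₂ f = f 1 • (1 : L₂ →L[ℂ] L₂) := by
  obtain ⟨u, hu⟩ := exists_unit_at (H := H)
  have hE₂ := supp_one E₂ hs hu
  set p := E₂ u with hp
  have hpp : p * p = p := by
    rw [hp, ← map_mul, hE₂ (u * u)]
    change (u 1 * u 1) • E₂ u = E₂ u
    rw [hu, one_mul, one_smul]
  have key : ∀ x z : L₂, ∀ ψ : C₀(H, ℂ), (∀ t, ψ t = ⟪z, α₂ t⁻¹ x⟫_ℂ) →
      E₁ ψ = ⟪z, p x⟫_ℂ • (1 : L₁ →L[ℂ] L₁) := by
    intro x z ψ hψ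
    refine ContinuousLinearMap.ext fun b => ?_
    refine ext_inner_left ℂ fun c => ?_
    obtain ⟨φ, ψ', hφ, hψ', e⟩ := h b c x z
    have a1 : ψ' = ψ := by ext s; rw [hψ, hψ']
    rw [a1] at e
    rw [← e, hE₂ φ, hφ 1, map_one, smul_apply, inner_smul_right,
      smul_apply, inner_smul_right]
    simp only [one_apply_eq_self]
    ring
  obtain ⟨φ₀, b₀, c₀, x₀, z₀, hφ₀, hne₀⟩ := hne
  have hp0 : ⟪z₀, p x₀⟫_ℂ ≠ 0 := by
    intro h0
    apply hne₀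
    rw [hE₂ φ₀, smul_apply, inner_smul_right, h0, mul_zero]
  obtain ⟨φ', ψ₀, hφ', hψ₀, e₀⟩ := h b₀ c₀ x₀ z₀
  have hE₁ : E₁ ψ₀ ≠ 0 := by
    intro h0
    have a1 : φ' = φ₀ := by ext s; rw [hφ₀, hφ']
    rw [a1, h0] at e₀
    apply hne₀
    rw [e₀]
    simp
  obtain ⟨t, ht⟩ := exists_mem_supp E₁ hE₁
  have hprop : α₂ t⁻¹ = (⟪z₀, α₂ t⁻¹ x₀⟫_ℂ / ⟪z₀, p x₀⟫_ℂ) • p := by
    refine inner_proportional hp0 fun x z => ?_
    obtain ⟨-, ψ, -, hψ, -⟩ := h 0 0 x z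
    have e1 : E₁ (⟪z₀, p x₀⟫_ℂ • ψ - ⟪z, p x⟫_ℂ • ψ₀) = 0 := by
      rw [map_sub, map_smul, map_smul, key x z ψ hψ, key x₀ z₀ ψ₀ hψ₀, smul_smul, smul_smul,
        mul_comm, sub_self]
    have e2 := ht _ e1
    change ⟪z₀, p x₀⟫_ℂ * ψ t - ⟪z, p x⟫_ℂ * ψ₀ t = 0 at e2
    rw [hψ, hψ₀, sub_eq_zero] at e2
    exact e2
  have hinv : α₂ t * α₂ t⁻¹ = 1 := by rw [← map_mul, mul_inv_cancel, map_one]
  have hp1 : p = 1 := idem_eq_one hpp hinv hprop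
  rw [hE₂ f, hp1]

omit [T2Space H] in
/-- the case `supp E₁ ⊆ {1}` -/
theorem Exch.case_one (h : Exch α₁ α₂ E₁ E₂) (hs : supp E₁ ⊆ {1})
    (hne : ∃ (φ : C₀(H, ℂ)) (b c : L₁) (x z : L₂), (∀ t, φ t = ⟪c, α₁ t b⟫_ℂ) ∧
      ⟪z, E₂ φ x⟫_ℂ ≠ 0) {b c : L₁} {φ : C₀(H, ℂ)} (hφ : ∀ t, φ t = ⟪c, α₁ t b⟫_ℂ) :
    E₂ φ = ⟪c, b⟫_ℂ • (1 : L₂ →L[ℂ] L₂) := by
  obtain ⟨u, hu⟩ := exists_unit_at (H := H)
  have hE₁ := supp_one E₁ hs hu
  set p := E₁ u with hp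
  have hpp : p * p = p := by
    rw [hp, ← map_mul, hE₁ (u * u)]
    change (u 1 * u 1) • E₁ u = E₁ u
    rw [hu, one_mul, one_smul]
  have key : ∀ b c : L₁, ∀ φ : C₀(H, ℂ), (∀ t, φ t = ⟪c, α₁ t b⟫_ℂ) →
      E₂ φ = ⟪c, p b⟫_ℂ • (1 : L₂ →L[ℂ] L₂) := by
    intro b c φ hφ
    refine ContinuousLinearMap.ext fun x => ?_
    refine ext_inner_left ℂ fun z => ?_
    obtain ⟨φ', ψ', hφ', hψ', e⟩ := h b c x z
    have a1 : φ' = φ := by ext s; rw [hφ, hφ']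
    rw [a1] at e
    rw [e, hE₁ ψ', hψ' 1, inv_one, map_one, smul_apply, inner_smul_right,
      smul_apply, inner_smul_right]
    simp only [one_apply_eq_self]
    ring
  obtain ⟨φ₀, b₀, c₀, x₀, z₀, hφ₀, hne₀⟩ := hne
  have hp0 : ⟪c₀, p b₀⟫_ℂ ≠ 0 := by
    intro h0
    apply hne₀
    rw [key b₀ c₀ φ₀ hφ₀, smul_apply, inner_smul_right, h0, zero_mul]
  have hE₂ : E₂ φ₀ ≠ 0 := by
    intro h0
    apply hne₀
    rw [h0]
    simp
  obtain ⟨t, ht⟩ := exists_mem_supp E₂ hE₂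
  have hprop : α₁ t = (⟪c₀, α₁ t b₀⟫_ℂ / ⟪c₀, p b₀⟫_ℂ) • p := by
    refine inner_proportional hp0 fun b c => ?_
    obtain ⟨φ, -, hφ, -, -⟩ := h b c 0 0
    have e1 : E₂ (⟪c₀, p b₀⟫_ℂ • φ - ⟪c, p b⟫_ℂ • φ₀) = 0 := by
      rw [map_sub, map_smul, map_smul, key b c φ hφ, key b₀ c₀ φ₀ hφ₀, smul_smul, smul_smul,
        mul_comm, sub_self]
    have e2 := ht _ e1
    change ⟪c₀, p b₀⟫_ℂ * φ t - ⟪c, p b⟫_ℂ * φ₀ t = 0 at e2
    rw [hφ, hφ₀, sub_eq_zero] at e2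
    exact e2
  have hinv : α₁ t⁻¹ * α₁ t = 1 := by rw [← map_mul, inv_mul_cancel, map_one]
  have hp1 : p = 1 := idem_eq_one hpp hinv hprop
  rw [key b c φ hφ, hp1]
  rfl

/-- **Theorem C (6), (7), pair version**: two covariant star representations of `C₀(H)` linked by
the exchange formula, `H` without non-trivial commuting closed normal sets. -/
theorem Exch.pair (h : Exch α₁ α₂ E₁ E₂) (h1 : Cov α₁ E₁) (h2 : Cov α₂ E₂)
    (hgrp : ∀ S T : Set H, IsClosed S → IsClosed T → (∀ s, ∀ t ∈ S, s * t * s⁻¹ ∈ S) →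
      (∀ s, ∀ t ∈ T, s * t * s⁻¹ ∈ T) → (∀ s ∈ S, ∀ t ∈ T, s * t = t * s) → S ⊆ {1} ∨ T ⊆ {1})
    (hne : ∃ (φ : C₀(H, ℂ)) (b c : L₁) (x z : L₂), (∀ t, φ t = ⟪c, α₁ t b⟫_ℂ) ∧
      ⟪z, E₂ φ x⟫_ℂ ≠ 0) {b c : L₁} {φ : C₀(H, ℂ)} (hφ : ∀ t, φ t = ⟪c, α₁ t b⟫_ℂ) :
    E₂ φ = ⟪c, b⟫_ℂ • (1 : L₂ →L[ℂ] L₂) := by
  rcases hgrp (supp E₂) (supp E₁) (isClosed_supp _) (isClosed_supp _)
    (fun s _ ht => supp_conj h2 s ht) (fun s _ ht => supp_conj h1 s ht)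
    (fun s hs t ht => h.supp_comm h2 hs ht) with hs | hs
  · rw [h.case_two hs hne φ, hφ 1, map_one]
    rfl
  · exact h.case_one hs hne hφ

end concl

section single

variable {L : Type*} [NormedAddCommGroup L] [InnerProductSpace ℂ L] [CompleteSpace L]
variable {α : H →* (L →L[ℂ] L)} {E : C₀(H, ℂ) →⋆ₙₐ[ℂ] (L →L[ℂ] L)}

/-- **Theorem C (6), (7), single version**: a nonzero covariant star representation of `C₀(H)` with
the exchange formula is `f ↦ f 1`, provided that every closed conjugation invariant commuting subset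
of `H` is contained in `{1}`. -/
theorem Exch.single (h : Exch α α E E) (h1 : Cov α E)
    (hgrp : ∀ S : Set H, IsClosed S → (∀ s, ∀ t ∈ S, s * t * s⁻¹ ∈ S) →
      (∀ s ∈ S, ∀ t ∈ S, s * t = t * s) → S ⊆ {1})
    (hne : ∃ (φ : C₀(H, ℂ)) (b c x z : L), (∀ t, φ t = ⟪c, α t b⟫_ℂ) ∧
      ⟪z, E φ x⟫_ℂ ≠ 0) (f : C₀(H, ℂ)) : E f = f 1 • (1 : L →L[ℂ] L) :=
  h.case_two (hgrp (supp E) (isClosed_supp _) (fun s _ ht => supp_conj h1 s ht)
    (fun _ hs _ ht => h.supp_comm h1 hs ht)) hne f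

/-- the same, where nonvanishing is asked of `E` only and coefficients are dense -/
theorem Exch.single' (h : Exch α α E E) (h1 : Cov α E)
    (hgrp : ∀ S : Set H, IsClosed S → (∀ s, ∀ t ∈ S, s * t * s⁻¹ ∈ S) →
      (∀ s ∈ S, ∀ t ∈ S, s * t = t * s) → S ⊆ {1})
    (hne : ∃ f, E f ≠ 0)
    (hd : Dense {φ : C₀(H, ℂ) | ∃ (s : Finset ℕ) (b c : ℕ → L),
      ∀ t, φ t = ∑ i ∈ s, ⟪c i, α t (b i)⟫_ℂ}) (f : C₀(H, ℂ)) :
    E f = f 1 • (1 : L →L[ℂ] L) := by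
  refine h.single h1 hgrp ?_ f
  by_contra hcon
  push Not at hcon
  have hz : ∀ (φ : C₀(H, ℂ)) (b c : L), (∀ t, φ t = ⟪c, α t b⟫_ℂ) → E φ = 0 := by
    intro φ b c hφ
    refine ContinuousLinearMap.ext fun x => ?_
    refine ext_inner_left ℂ fun z => ?_
    rw [hcon φ b c x z hφ]
    simp
  obtain ⟨g, hg⟩ := hne
  apply hg
  have hcont : Continuous E := by
    exact (AddMonoidHomClass.continuous_of_bound E 1 fun x => by
      rw [one_mul]; exact NonUnitalStarAlgHom.norm_apply_le E x)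
  refine hd.induction (P := fun φ => E φ = 0) ?_ (isClosed_eq hcont continuous_const) g
  rintro φ ⟨s, b, c, hφ⟩
  choose φi ψi hφi _ _ using fun i => h (b i) (c i) (0 : L) (0 : L)
  have e : φ = ∑ i ∈ s, φi i := by
    ext t
    rw [hφ t]
    have h2 : (∑ i ∈ s, φi i) t = ∑ i ∈ s, φi i t := map_sum (evl t) φi s
    rw [h2]
    exact Finset.sum_congr rfl fun i _ => (hφi i t).symm
  rw [e, map_sum]
  exact Finset.sum_eq_zero fun i _ => hz _ _ _ (hφi i)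

end single

end grp

end Vale.Agent.P092.H978
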